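import Mathlib

/-!
# Minimal lifts

In a finite monoid, a subsemigroup `M` has an idempotent `E` such that every element of `E M E` is a
unit of the corner `E T E`, with inverse of the form `E * x ^ k`.
-/

set_option autoImplicit false

namespace Crest.Agent.Lib.NF

/-- A closed nonempty subset of a finite monoid has a minimal idempotent: all its elements in the
corner are units of the corner, the inverse being `E * x ^ k`. -/
theorem exists_min_idem {T : Type*} [Monoid T] [Finite T] (M : Set T) (hne : M.Nonempty)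
    (hmul : ∀ x ∈ M, ∀ y ∈ M, x * y ∈ M) :
    ∃ E ∈ M, E * E = E ∧ ∀ x ∈ M, E * x = x → x * E = x →
      ∃ k : ℕ, E * (E * x ^ k) = E * x ^ k ∧ (E * x ^ k) * E = E * x ^ k ∧
        (E * x ^ k) * x = E ∧ x * (E * x ^ k) = E := by
  classical
  have hpow : ∀ x ∈ M, ∀ n : ℕ, x ^ (n + 1) ∈ M := by
    intro x hx n
    induction n with
    | zero => simpa using hx
    | succ n ih =>
      rw [pow_succ]
      exact hmul _ ih _ hx
  have hidem : ∀ x ∈ M, ∃ n : ℕ, x ^ (n + 1) * x ^ (n + 1) = x ^ (n + 1) := by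
    intro x _
    obtain ⟨a, b, hab, h⟩ := Finite.exists_ne_map_eq_of_infinite (fun n : ℕ => x ^ n)
    wlog hlt : a < b generalizing a b
    · exact this b a hab.symm h.symm (lt_of_le_of_ne (not_lt.mp hlt) hab.symm)
    set p := b - a with hp
    have hp0 : 0 < p := Nat.sub_pos_of_lt hlt
    have hper : ∀ k m : ℕ, a ≤ m → x ^ (m + k * p) = x ^ m := by
      intro k m hm
      induction k with
      | zero => simp
      | succ k ih =>
        have h1 : x ^ (a + p) = x ^ a := by
          have : a + p = b := by omega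
          rw [this]; exact h.symm
        have h2 : x ^ (m + p) = x ^ m := by
          obtain ⟨c, rfl⟩ := Nat.exists_eq_add_of_le hm
          calc x ^ (a + c + p) = x ^ (a + p) * x ^ c := by rw [← pow_add]; congr 1; omega
            _ = x ^ a * x ^ c := by rw [h1]
            _ = x ^ (a + c) := by rw [pow_add]
        calc x ^ (m + (k + 1) * p) = x ^ ((m + k * p) + p) := by congr 1; ring
          _ = x ^ (m + k * p) * x ^ p := by rw [pow_add]
          _ = x ^ m * x ^ p := by rw [ih]
          _ = x ^ (m + p) := by rw [pow_add]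
          _ = x ^ m := h2
    have hpos : 0 < (a + 1) * p := by positivity
    refine ⟨(a + 1) * p - 1, ?_⟩
    have e : (a + 1) * p - 1 + 1 = (a + 1) * p := by omega
    rw [e, ← pow_add]
    have h3 : a ≤ (a + 1) * p := by nlinarith
    have := hper (a + 1) ((a + 1) * p) h3
    simpa using this
  -- the idempotents of `M`
  set I : Set T := {E | E ∈ M ∧ E * E = E} with hI
  have hIne : I.Nonempty := by
    obtain ⟨x, hx⟩ := hne
    obtain ⟨n, hn⟩ := hidem x hx
    exact ⟨x ^ (n + 1), hpow x hx n, hn⟩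
  let cor : T → Set T := fun E => (fun m => E * m * E) '' M
  have hfin : I.Finite := Set.toFinite I
  obtain ⟨E, hE, hmin⟩ := Set.exists_min_image I (fun E => (cor E).ncard) hfin hIne
  refine ⟨E, hE.1, hE.2, ?_⟩
  intro x hx hEx hxE
  obtain ⟨n, hn⟩ := hidem x hx
  set F := x ^ (n + 1) with hF
  have hFM : F ∈ M := hpow x hx n
  have hFI : F ∈ I := ⟨hFM, hn⟩
  have hEpow : ∀ k : ℕ, E * x ^ (k + 1) = x ^ (k + 1) := by
    intro k
    rw [pow_succ', ← mul_assoc, hEx]
  have hpowE : ∀ k : ℕ, x ^ (k + 1) * E = x ^ (k + 1) := by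
    intro k
    rw [pow_succ, mul_assoc, hxE]
  have hEF : E * F = F := hEpow n
  have hFE : F * E = F := hpowE n
  have hsub : cor F ⊆ cor E := by
    rintro _ ⟨m, hm, rfl⟩
    refine ⟨F * m * F, hmul _ (hmul _ hFM _ hm) _ hFM, ?_⟩
    simp only
    rw [mul_assoc E, mul_assoc (F * m) F E, hFE, ← mul_assoc E, ← mul_assoc E, hEF]
  have hcard : (cor E).ncard ≤ (cor F).ncard := hmin F hFI
  have heq : cor F = cor E := Set.eq_of_subset_of_ncard_le hsub hcard (Set.toFinite _)
  have hEmem : E ∈ cor E := ⟨E, hE.1, by simp only; rw [hE.2, hE.2]⟩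
  rw [← heq] at hEmem
  obtain ⟨m, _, hm⟩ := hEmem
  simp only at hm
  have hFE' : F * E = E := by
    rw [← hm, ← mul_assoc, ← mul_assoc, hn]
  have hFeq : F = E := hFE.symm.trans hFE'
  refine ⟨n, ?_, ?_, ?_, ?_⟩
  · rw [← mul_assoc, hE.2]
  · cases n with
    | zero =>
      simp only [pow_zero, mul_one]
      exact hE.2
    | succ n =>
      rw [mul_assoc, hpowE n]
  · rw [mul_assoc, ← pow_succ]
    exact hEF.symm ▸ (hEF.trans hFeq)
  · rw [← mul_assoc, hxE, ← pow_succ']
    exact hFeq

end Crest.Agent.Lib.NF
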