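import Crest.Agent.Lib.NF.Level
import Crest.Agent.Lib.NF.MinLift

/-!
Fixing, the sets `K`, arenas, and the min lift at a level (row 294, #2142).
-/

set_option autoImplicit false

namespace Crest.Agent.NF

open Crest.Agent.Lib.TwoWayBeh (Dart Beh)

universe u

variable {Q : Type u} {H : Type}

namespace Level

variable (L : Level Q H)

/-- `x` fixes the dart `d`. -/
def Fix (x : L.T) (d : Dart Q) : Prop := (L.δ x).rel d d

/-- The darts of the level, of direction `b`, not fixed by `x`. -/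
def K (b : Bool) (x : L.T) : Set (Dart Q) := {d | d ∈ L.S ∧ d.2 = b ∧ ¬ L.Fix x d}

variable {L}

lemma fix_one {d : Dart Q} (hd : d ∈ L.S) : L.Fix 1 d := L.refl d hd

lemma fix_mul' {x y : L.T} {d : Dart Q} (hx : L.Fix x d) (hy : L.Fix y d) : L.Fix (x * y) d := by
  unfold Fix
  rw [L.δ_mul]
  exact fix_mul hx hy

lemma fix_pow {x : L.T} {d : Dart Q} (hd : d ∈ L.S) (hx : L.Fix x d) (k : ℕ) : L.Fix (x ^ k) d := by
  induction k with
  | zero => simpa using fix_one hd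
  | succ k ih => rw [pow_succ]; exact fix_mul' ih hx

/-- The inverse of a unit is a power of it, so it fixes what the unit fixes. -/
lemma fix_inv {x v : L.T} {d : Dart Q} (hd : d ∈ L.S) (hvx : v * x = 1)
    (hx : L.Fix x d) : L.Fix v d := by
  obtain ⟨n, hn, hi⟩ := Crest.Agent.Lib.TwoWayBeh.exists_idem_pow x
  -- `x ^ n = 1`
  have hvn : ∀ k : ℕ, v ^ k * x ^ k = 1 := by
    intro k
    induction k with
    | zero => simp
    | succ k ih =>
      rw [pow_succ, pow_succ', mul_assoc, ← mul_assoc v, hvx, one_mul, ih]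
  have h1 : x ^ n = 1 := by
    calc x ^ n = (v ^ n * x ^ n) * x ^ n := by rw [hvn, one_mul]
      _ = v ^ n * (x ^ n * x ^ n) := by rw [mul_assoc]
      _ = v ^ n * x ^ n := by rw [hi]
      _ = 1 := hvn n
  obtain ⟨m, rfl⟩ : ∃ m, n = m + 1 := ⟨n - 1, by omega⟩
  have h2 : v = x ^ m := by
    calc v = v * x ^ (m + 1) := by rw [h1, mul_one]
      _ = (v * x) * x ^ m := by rw [pow_succ', mul_assoc]
      _ = x ^ m := by rw [hvx, one_mul]
  rw [h2]
  exact fix_pow hd hx m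

lemma mem_S_of_fix {x : L.T} {d : Dart Q} (hx : L.Fix x d) : d ∈ L.S := (L.sup x d d hx).1

end Level

/-- `L` is an arena with hubs `C`: the identity has relation `id_C` and each element of relation
`id_C` is a unit. -/
structure Arena (L : Level Q H) (C : Set H) : Prop where
  one : ∀ a c, L.ψ 1 a c ↔ a = c ∧ a ∈ C
  unit : ∀ x : L.T, (∀ a c, L.ψ x a c ↔ a = c ∧ a ∈ C) → ∃ v, v * x = 1 ∧ x * v = 1

namespace Arena

variable {L : Level Q H} {C : Set H}

/-- Lifts in an arena. -/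
lemma lift (hA : Arena L C) (ρ : H → H → Prop) :
    ∃ x : L.T, ∀ a c, L.ψ x a c ↔ a ∈ C ∧ ρ a c ∧ c ∈ C := by
  obtain ⟨x, hx⟩ := L.surj ρ
  refine ⟨x, fun a c => ?_⟩
  rw [hx]
  constructor
  · rintro ⟨p, q, h1, h2, h3⟩
    obtain ⟨rfl, ha⟩ := (hA.one _ _).1 h1
    obtain ⟨rfl, hq⟩ := (hA.one _ _).1 h3
    exact ⟨ha, h2, hq⟩
  · rintro ⟨h1, h2, h3⟩
    exact ⟨a, c, (hA.one _ _).2 ⟨rfl, h1⟩, h2, (hA.one _ _).2 ⟨rfl, h3⟩⟩

end Arena

/-- **The min lift.** If some element of a level has relation `id_C`, then the corner of a suitable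
idempotent of relation `id_C` is an arena with hubs `C`. -/
theorem exists_arena_corner [Finite Q] (L : Level Q H) (C : Set H)
    (hne : ∃ x : L.T, ∀ a c, L.ψ x a c ↔ a = c ∧ a ∈ C) :
    ∃ (E : L.T) (hE : E * E = E), Arena (L.corner hE) C := by
  let M : Set L.T := {x | ∀ a c, L.ψ x a c ↔ a = c ∧ a ∈ C}
  have hmul : ∀ x ∈ M, ∀ y ∈ M, x * y ∈ M := by
    intro x hx y hy a c
    rw [L.ψ_mul]
    constructor
    · rintro ⟨b, h1, h2⟩
      obtain ⟨rfl, h3⟩ := (hx _ _).1 h1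
      obtain ⟨rfl, _⟩ := (hy _ _).1 h2
      exact ⟨rfl, h3⟩
    · rintro ⟨rfl, h⟩
      exact ⟨a, (hx _ _).2 ⟨rfl, h⟩, (hy _ _).2 ⟨rfl, h⟩⟩
  obtain ⟨E, hEM, hE, hmin⟩ := Crest.Agent.Lib.NF.exists_min_idem M hne hmul
  refine ⟨E, hE, ?_, ?_⟩
  · exact hEM
  · intro x hx
    obtain ⟨k, h1, h2, h3, h4⟩ := hmin x.1 hx x.2.1 x.2.2
    refine ⟨⟨E * x.1 ^ k, h1, h2⟩, Subtype.ext h3, Subtype.ext h4⟩

end Crest.Agent.NF
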