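import Crest.Agent.Lib.TwoWayBeh.Star

/-!
Crossing chains of the star product of behaviours, fixed darts, persistence and crossover.
-/

set_option autoImplicit false

namespace Crest.Agent.NF

open Crest.Agent.Lib.TwoWayBeh (Dart Walk Beh starRel)
open Relation

universe u

variable {Q : Type u}

/-- One hop across the cut. -/
def Hop (A B : Beh Q) (z z' : Dart Q) : Prop :=
  (z.2 = true ∧ z'.2 = false ∧ B.rel z z') ∨ (z.2 = false ∧ z'.2 = true ∧ A.rel z z')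

/-- The first crossing of the cut. -/
def First (A B : Beh Q) (d z : Dart Q) : Prop :=
  (d.2 = true ∧ z.2 = true ∧ A.rel d z) ∨ (d.2 = false ∧ z.2 = false ∧ B.rel d z)

/-- The last crossing of the cut. -/
def Last (A B : Beh Q) (z e : Dart Q) : Prop :=
  (z.2 = true ∧ e.2 = true ∧ B.rel z e) ∨ (z.2 = false ∧ e.2 = false ∧ A.rel z e)

/-- No crossing of the cut. -/
def NoCross (A B : Beh Q) (d e : Dart Q) : Prop :=
  (d.2 = true ∧ e.2 = false ∧ A.rel d e) ∨ (d.2 = false ∧ e.2 = true ∧ B.rel d e)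

lemma First.dir {A B : Beh Q} {d z : Dart Q} (h : First A B d z) : d.2 = z.2 := by
  rcases h with ⟨h1, h2, _⟩ | ⟨h1, h2, _⟩ <;> rw [h1, h2]

lemma Last.dir {A B : Beh Q} {z e : Dart Q} (h : Last A B z e) : z.2 = e.2 := by
  rcases h with ⟨h1, h2, _⟩ | ⟨h1, h2, _⟩ <;> rw [h1, h2]

lemma NoCross.dir {A B : Beh Q} {d e : Dart Q} (h : NoCross A B d e) : d.2 ≠ e.2 := by
  rcases h with ⟨h1, h2, _⟩ | ⟨h1, h2, _⟩ <;> simp [h1, h2]

lemma walk_chain {A B : Beh Q} {i : Bool} {z e : Dart Q} (h : Walk A.rel B.rel i z e)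
    (hi : i = z.2) : ∃ z1, ReflTransGen (Hop A B) z z1 ∧ Last A B z1 e := by
  induction h with
  | @exitA d e h1 h2 =>
    exact ⟨d, ReflTransGen.refl, Or.inr ⟨hi.symm, h2, h1⟩⟩
  | @exitB d e h1 h2 =>
    exact ⟨d, ReflTransGen.refl, Or.inl ⟨hi.symm, h2, h1⟩⟩
  | @toB d e o h1 h2 _ ih =>
    obtain ⟨z1, h3, h4⟩ := ih h2.symm
    exact ⟨z1, ReflTransGen.head (Or.inr ⟨hi.symm, h2, h1⟩) h3, h4⟩
  | @toA d e o h1 h2 _ ih =>
    obtain ⟨z1, h3, h4⟩ := ih h2.symm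
    exact ⟨z1, ReflTransGen.head (Or.inl ⟨hi.symm, h2, h1⟩) h3, h4⟩

lemma chain_walk {A B : Beh Q} {z z1 e : Dart Q} (h : ReflTransGen (Hop A B) z z1)
    (hl : Last A B z1 e) : Walk A.rel B.rel z.2 z e := by
  induction h using ReflTransGen.head_induction_on with
  | refl =>
    rcases hl with ⟨h1, h2, h3⟩ | ⟨h1, h2, h3⟩
    · rw [h1]; exact Walk.exitB h3 h2
    · rw [h1]; exact Walk.exitA h3 h2
  | head h0 _ ih =>
    rcases h0 with ⟨h1, h2, h3⟩ | ⟨h1, h2, h3⟩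
    · rw [h1]; rw [h2] at ih; exact Walk.toA h3 h2 ih
    · rw [h1]; rw [h2] at ih; exact Walk.toB h3 h2 ih

/-- **The star product by crossing chains.** -/
lemma mul_rel_iff {A B : Beh Q} {d e : Dart Q} :
    (A * B).rel d e ↔ NoCross A B d e ∨
      ∃ z0 z1, First A B d z0 ∧ ReflTransGen (Hop A B) z0 z1 ∧ Last A B z1 e := by
  rw [Beh.mul_rel]
  constructor
  · intro h
    change Walk A.rel B.rel (!d.2) d e at h
    cases hd : d.2 with
    | true =>
      rw [hd] at h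
      cases h with
      | exitA h1 h2 => exact Or.inl (Or.inl ⟨hd, h2, h1⟩)
      | @toB _ z _ h1 h2 h3 =>
        obtain ⟨z1, h4, h5⟩ := walk_chain h3 h2.symm
        exact Or.inr ⟨z, z1, Or.inl ⟨hd, h2, h1⟩, h4, h5⟩
    | false =>
      rw [hd] at h
      cases h with
      | exitB h1 h2 => exact Or.inl (Or.inr ⟨hd, h2, h1⟩)
      | @toA _ z _ h1 h2 h3 =>
        obtain ⟨z1, h4, h5⟩ := walk_chain h3 h2.symm
        exact Or.inr ⟨z, z1, Or.inr ⟨hd, h2, h1⟩, h4, h5⟩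
  · rintro (h | ⟨z0, z1, h1, h2, h3⟩)
    · change Walk A.rel B.rel (!d.2) d e
      rcases h with ⟨h1, h2, h3⟩ | ⟨h1, h2, h3⟩
      · rw [h1]; exact Walk.exitA h3 h2
      · rw [h1]; exact Walk.exitB h3 h2
    · change Walk A.rel B.rel (!d.2) d e
      have hw := chain_walk h2 h3
      rcases h1 with ⟨h4, h5, h6⟩ | ⟨h4, h5, h6⟩
      · rw [h4]; rw [h5] at hw; exact Walk.toB h6 h5 hw
      · rw [h4]; rw [h5] at hw; exact Walk.toA h6 h5 hw

lemma mul_of_chain {A B : Beh Q} {d e z0 z1 : Dart Q} (h1 : First A B d z0)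
    (h2 : ReflTransGen (Hop A B) z0 z1) (h3 : Last A B z1 e) : (A * B).rel d e :=
  mul_rel_iff.2 (Or.inr ⟨z0, z1, h1, h2, h3⟩)

lemma mul_of_noCross {A B : Beh Q} {d e : Dart Q} (h : NoCross A B d e) : (A * B).rel d e :=
  mul_rel_iff.2 (Or.inl h)

lemma mul_through {A B : Beh Q} {d e : Dart Q} (h : (A * B).rel d e) (hde : d.2 = e.2) :
    ∃ z0 z1, First A B d z0 ∧ ReflTransGen (Hop A B) z0 z1 ∧ Last A B z1 e := by
  rcases mul_rel_iff.1 h with h | h
  · exact absurd hde h.dir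
  · exact h

/-- `z` lies on a crossing chain from `d` to `e`. -/
def On (A B : Beh Q) (d e z : Dart Q) : Prop :=
  ∃ z0 z1, First A B d z0 ∧ ReflTransGen (Hop A B) z0 z ∧ ReflTransGen (Hop A B) z z1 ∧
    Last A B z1 e

/-- **Crossover.** -/
lemma On.cross {A B : Beh Q} {d e d' e' z : Dart Q} (h : On A B d e z) (h' : On A B d' e' z) :
    (A * B).rel d e' := by
  obtain ⟨z0, _, h1, h2, _, _⟩ := h
  obtain ⟨_, z1, _, _, h3, h4⟩ := h'
  exact mul_of_chain h1 (h2.trans h3) h4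

/-- A dart fixed by both factors is fixed by the product. -/
lemma fix_mul {A B : Beh Q} {d : Dart Q} (hA : A.rel d d) (hB : B.rel d d) : (A * B).rel d d := by
  cases hd : d.2 with
  | true => exact mul_of_chain (Or.inl ⟨hd, hd, hA⟩) ReflTransGen.refl (Or.inl ⟨hd, hd, hB⟩)
  | false => exact mul_of_chain (Or.inr ⟨hd, hd, hB⟩) ReflTransGen.refl (Or.inr ⟨hd, hd, hA⟩)

lemma Beh.mono_first {A A' B B' : Beh Q} {d z : Dart Q} (hA : A ≤ A') (hB : B ≤ B')
    (h : First A B d z) : First A' B' d z := by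
  rcases h with ⟨h1, h2, h3⟩ | ⟨h1, h2, h3⟩
  · exact Or.inl ⟨h1, h2, hA _ _ h3⟩
  · exact Or.inr ⟨h1, h2, hB _ _ h3⟩

/-- **Persistence**, with an explicit chain. -/
lemma persist_chain {A B t : Beh Q} {d e z0 z1 : Dart Q} (h1 : First A B d z0)
    (h2 : ReflTransGen (Hop A B) z0 z1) (h3 : Last A B z1 e)
    (ht : ∀ z, ReflTransGen (Hop A B) z0 z → ReflTransGen (Hop A B) z z1 → t.rel z z) :
    (A * (t * B)).rel d e := by
  have hz0 := ht z0 ReflTransGen.refl h2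
  have hz1 := ht z1 h2 ReflTransGen.refl
  have hF : First A (t * B) d z0 := by
    rcases h1 with ⟨h4, h5, h6⟩ | ⟨h4, h5, h6⟩
    · exact Or.inl ⟨h4, h5, h6⟩
    · exact Or.inr ⟨h4, h5, mul_of_chain (Or.inr ⟨h4, h5, h6⟩) ReflTransGen.refl
        (Or.inr ⟨h5, h5, hz0⟩)⟩
  have hL : Last A (t * B) z1 e := by
    rcases h3 with ⟨h4, h5, h6⟩ | ⟨h4, h5, h6⟩
    · exact Or.inl ⟨h4, h5, mul_of_chain (Or.inl ⟨h4, h4, hz1⟩) ReflTransGen.refl
        (Or.inl ⟨h4, h5, h6⟩)⟩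
    · exact Or.inr ⟨h4, h5, h6⟩
  have hC : ∀ z, ReflTransGen (Hop A B) z0 z → ReflTransGen (Hop A B) z z1 →
      ReflTransGen (Hop A (t * B)) z0 z := by
    intro z hz
    induction hz with
    | refl => intro _; exact ReflTransGen.refl
    | @tail p r hp hpr ih =>
      intro hr
      have hp1 : ReflTransGen (Hop A B) p z1 := ReflTransGen.head hpr hr
      refine ReflTransGen.tail (ih hp1) ?_
      rcases hpr with ⟨h4, h5, h6⟩ | ⟨h4, h5, h6⟩
      · refine Or.inl ⟨h4, h5, ?_⟩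
        exact mul_of_chain (Or.inl ⟨h4, h4, ht p hp hp1⟩) (ReflTransGen.single (Or.inl ⟨h4, h5, h6⟩))
          (Or.inr ⟨h5, h5, ht r (hp.tail (Or.inl ⟨h4, h5, h6⟩)) hr⟩)
      · exact Or.inr ⟨h4, h5, h6⟩
  exact mul_of_chain hF (hC z1 h2 ReflTransGen.refl) hL

/-- **Persistence.** -/
lemma persist {A B t : Beh Q} {d e : Dart Q} (hde : d.2 = e.2) (h : (A * B).rel d e)
    (ht : ∀ z, On A B d e z → t.rel z z) : (A * (t * B)).rel d e := by
  obtain ⟨z0, z1, h1, h2, h3⟩ := mul_through h hde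
  exact persist_chain h1 h2 h3 (fun z hz hz' => ht z ⟨z0, z1, h1, hz, hz', h3⟩)

/-! ### Idempotents, cups and the relation `Xi` -/

/-- `Xi Y X d e`: same direction, an even cup path of `Y` from `d` to some `g`, and `X.rel g e`. -/
def Xi (Y X : Beh Q) (d e : Dart Q) : Prop :=
  d.2 = e.2 ∧ ∃ g, ReflTransGen (Hop Y Y) d g ∧ g.2 = d.2 ∧ X.rel g e

/-- `X` is in the corner of `Y`. -/
structure InCorner (Y X : Beh Q) : Prop where
  left : Y * X = X
  right : X * Y = X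

lemma InCorner.rel_of_left_cup {Y X : Beh Q} (h : InCorner Y X) {d e : Dart Q} (hr : Y.rel d e)
    (hd : d.2 = true) (he : e.2 = false) : X.rel d e := by
  have : (Y * X).rel d e := mul_of_noCross (Or.inl ⟨hd, he, hr⟩)
  rwa [h.left] at this

lemma InCorner.rel_of_right_cup {Y X : Beh Q} (h : InCorner Y X) {d e : Dart Q} (hr : Y.rel d e)
    (hd : d.2 = false) (he : e.2 = true) : X.rel d e := by
  have : (X * Y).rel d e := mul_of_noCross (Or.inr ⟨hd, he, hr⟩)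
  rwa [h.right] at this

lemma InCorner.hop_left {Y X : Beh Q} (h : InCorner Y X) {p r : Dart Q} (hr : Hop Y Y p r) :
    Hop Y X p r := by
  rcases hr with ⟨h4, h5, h6⟩ | ⟨h4, h5, h6⟩
  · exact Or.inl ⟨h4, h5, h.rel_of_left_cup h6 h4 h5⟩
  · exact Or.inr ⟨h4, h5, h6⟩

lemma InCorner.hop_right {Y X : Beh Q} (h : InCorner Y X) {p r : Dart Q} (hr : Hop Y Y p r) :
    Hop X Y p r := by
  rcases hr with ⟨h4, h5, h6⟩ | ⟨h4, h5, h6⟩
  · exact Or.inl ⟨h4, h5, h6⟩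
  · exact Or.inr ⟨h4, h5, h.rel_of_right_cup h6 h4 h5⟩

lemma rt_map {r s : Dart Q → Dart Q → Prop} (f : ∀ a b, r a b → s a b) {a b : Dart Q}
    (h : ReflTransGen r a b) : ReflTransGen s a b :=
  ReflTransGen.mono f _ _ h

/-- `Y`-through, cups of `Y`, `X`-through compose in `X`. -/
lemma InCorner.absorb_left {Y X : Beh Q} (h : InCorner Y X) {g q g' s : Dart Q} (h1 : Y.rel g q)
    (h2 : q.2 = g.2) (h3 : ReflTransGen (Hop Y Y) q g') (h4 : X.rel g' s) (h5 : g'.2 = g.2)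
    (h6 : s.2 = g.2) : X.rel g s := by
  cases hg : g.2 with
  | true =>
    rw [hg] at h2 h5 h6
    have : (Y * X).rel g s := mul_of_chain (Or.inl ⟨hg, h2, h1⟩)
      (rt_map (fun _ _ => h.hop_left) h3) (Or.inl ⟨h5, h6, h4⟩)
    rwa [h.left] at this
  | false =>
    rw [hg] at h2 h5 h6
    have : (X * Y).rel g s := mul_of_chain (Or.inr ⟨hg, h2, h1⟩)
      (rt_map (fun _ _ => h.hop_right) h3) (Or.inr ⟨h5, h6, h4⟩)
    rwa [h.right] at this

/-- `X`-through, cups of `Y`, `Y`-through compose in `X`. -/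
lemma InCorner.absorb_right {Y X : Beh Q} (h : InCorner Y X) {g q g' s : Dart Q} (h1 : X.rel g q)
    (h2 : q.2 = g.2) (h3 : ReflTransGen (Hop Y Y) q g') (h4 : Y.rel g' s) (h5 : g'.2 = g.2)
    (h6 : s.2 = g.2) : X.rel g s := by
  cases hg : g.2 with
  | true =>
    rw [hg] at h2 h5 h6
    have : (X * Y).rel g s := mul_of_chain (Or.inl ⟨hg, h2, h1⟩)
      (rt_map (fun _ _ => h.hop_right) h3) (Or.inl ⟨h5, h6, h4⟩)
    rwa [h.right] at this
  | false =>
    rw [hg] at h2 h5 h6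
    have : (Y * X).rel g s := mul_of_chain (Or.inr ⟨hg, h2, h1⟩)
      (rt_map (fun _ _ => h.hop_left) h3) (Or.inr ⟨h5, h6, h4⟩)
    rwa [h.left] at this

lemma inCorner_self {Y : Beh Q} (hY : Y * Y = Y) : InCorner Y Y := ⟨hY, hY⟩

lemma Xi.dir {Y X : Beh Q} {d e : Dart Q} (h : Xi Y X d e) : d.2 = e.2 := h.1

lemma Xi.trans_left {Y X : Beh Q} (hX : InCorner Y X) {p q s : Dart Q} (h1 : Xi Y Y p q)
    (h2 : Xi Y X q s) : Xi Y X p s := by
  obtain ⟨h3, g, h4, h5, h6⟩ := h1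
  obtain ⟨h7, g', h8, h9, h10⟩ := h2
  refine ⟨h3.trans h7, g, h4, h5, ?_⟩
  exact hX.absorb_left h6 (by rw [← h3, h5]) h8 h10 (by rw [h9, ← h3, h5]) (by rw [← h7, ← h3, h5])

lemma Xi.trans_right {Y X : Beh Q} (hX : InCorner Y X) {p q s : Dart Q} (h1 : Xi Y X p q)
    (h2 : Xi Y Y q s) : Xi Y X p s := by
  obtain ⟨h3, g, h4, h5, h6⟩ := h1
  obtain ⟨h7, g', h8, h9, h10⟩ := h2
  refine ⟨h3.trans h7, g, h4, h5, ?_⟩
  exact hX.absorb_right h6 (by rw [← h3, h5]) h8 h10 (by rw [h9, ← h3, h5]) (by rw [← h7, ← h3, h5])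

/-- A through arc of an idempotent has a `Xi`-predecessor reachable by the same start. -/
lemma idem_step {Y : Beh Q} (hY : Y * Y = Y) {d e : Dart Q} (h : Y.rel d e) (hde : d.2 = e.2) :
    ∃ q, Y.rel d q ∧ q.2 = d.2 ∧ Xi Y Y q e := by
  have h' : (Y * Y).rel d e := by rw [hY]; exact h
  obtain ⟨z0, z1, h1, h2, h3⟩ := mul_through h' hde
  have hz0 := h1.dir
  have hz1 := h3.dir
  refine ⟨z0, ?_, hz0.symm, ?_, z1, h2, ?_, ?_⟩
  · rcases h1 with ⟨_, _, h⟩ | ⟨_, _, h⟩ <;> exact h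
  · rw [← hz0, hde]
  · rw [hz1, ← hde, hz0]
  · rcases h3 with ⟨_, _, h⟩ | ⟨_, _, h⟩ <;> exact h

/-- Regular darts. -/
def Reg (Y : Beh Q) (d : Dart Q) : Prop := Xi Y Y d d

/-- **Every through arc of an idempotent factors through a regular dart.** -/
lemma through_factor [Finite Q] {Y : Beh Q} (hY : Y * Y = Y) {d e : Dart Q} (h : Y.rel d e)
    (hde : d.2 = e.2) : ∃ r, Reg Y r ∧ r.2 = d.2 ∧ Y.rel d r ∧ Xi Y Y r e := by
  classical
  have hXY := inCorner_self hY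
  let P : Set (Dart Q) := {q | Y.rel d q ∧ q.2 = d.2 ∧ Xi Y Y q e}
  have hstep : ∀ q ∈ P, ∃ q' ∈ P, Xi Y Y q' q := by
    rintro q ⟨h1, h2, h3⟩
    obtain ⟨q', h4, h5, h6⟩ := idem_step hY h1 h2.symm
    exact ⟨q', ⟨h4, h5, Xi.trans_left hXY h6 h3⟩, h6⟩
  obtain ⟨q0, h4, h5, h6⟩ := idem_step hY h hde
  have hq0 : q0 ∈ P := ⟨h4, h5, h6⟩
  by_contra hcon
  have hirr : ∀ q ∈ P, ¬ Xi Y Y q q := by
    intro q hq hxi
    exact hcon ⟨q, hxi, hq.2.1, hq.1, hq.2.2⟩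
  -- iterate the step inside the finite set P
  choose! f hf1 hf2 using hstep
  have hiter : ∀ n : ℕ, f^[n] q0 ∈ P := by
    intro n
    induction n with
    | zero => exact hq0
    | succ n ih =>
      rw [Function.iterate_succ_apply']
      exact hf1 _ ih
  have hlt : ∀ i k : ℕ, Xi Y Y (f^[i + k + 1] q0) (f^[i] q0) := by
    intro i k
    induction k with
    | zero =>
      rw [show i + 0 + 1 = i + 1 by omega, Function.iterate_succ_apply']
      exact hf2 _ (hiter i)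
    | succ k ih =>
      rw [show i + (k + 1) + 1 = (i + k + 1) + 1 by omega, Function.iterate_succ_apply']
      exact Xi.trans_left hXY (hf2 _ (hiter _)) ih
  obtain ⟨i, j, hij, hE⟩ := Finite.exists_ne_map_eq_of_infinite (fun n : ℕ => f^[n] q0)
  wlog hl : i < j generalizing i j
  · exact this j i hij.symm hE.symm (lt_of_le_of_ne (not_lt.mp hl) hij.symm)
  obtain ⟨k, rfl⟩ : ∃ k, j = i + k + 1 := ⟨j - i - 1, by omega⟩
  have h7 := hlt i k
  have hE' : f^[i] q0 = f^[i + k + 1] q0 := hE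
  rw [← hE'] at h7
  exact hirr _ (hiter i) h7

/-- Representatives of the regular darts. -/
lemma exists_reps {Y : Beh Q} (hY : Y * Y = Y) : ∃ Rp : Set (Dart Q),
    (∀ d ∈ Rp, Reg Y d) ∧ (∀ d ∈ Rp, ∀ e ∈ Rp, Xi Y Y d e → Xi Y Y e d → d = e) ∧
    (∀ r, Reg Y r → ∃ e ∈ Rp, Xi Y Y r e ∧ Xi Y Y e r) := by
  classical
  have hXY := inCorner_self hY
  let st : Setoid {d : Dart Q // Reg Y d} :=
    { r := fun a b => Xi Y Y a.1 b.1 ∧ Xi Y Y b.1 a.1
      iseqv := ⟨fun a => ⟨a.2, a.2⟩, fun h => ⟨h.2, h.1⟩,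
        fun h1 h2 => ⟨Xi.trans_left hXY h1.1 h2.1, Xi.trans_left hXY h2.2 h1.2⟩⟩ }
  let out : Quotient st → {d : Dart Q // Reg Y d} := Quotient.out
  refine ⟨{d | ∃ q : Quotient st, (out q).1 = d}, ?_, ?_, ?_⟩
  · rintro d ⟨q, rfl⟩
    exact (out q).2
  · rintro d ⟨q, rfl⟩ e ⟨q', rfl⟩ h1 h2
    have h3 : q = q' := by
      rw [← Quotient.out_eq q, ← Quotient.out_eq q']
      exact Quotient.sound ⟨h1, h2⟩
    rw [h3]
  · intro r hr
    refine ⟨(out (Quotient.mk st ⟨r, hr⟩)).1, ⟨_, rfl⟩, ?_⟩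
    have h := Quotient.mk_out (s := st) (⟨r, hr⟩ : {d : Dart Q // Reg Y d})
    exact ⟨h.2, h.1⟩

/-! ### The splitting of an idempotent -/

/-- The left half of an idempotent. -/
def aB (Y : Beh Q) (Rp : Set (Dart Q)) : Beh Q :=
  ⟨fun d e => (d.2 = true ∧ e.2 = true ∧ Y.rel d e ∧ e ∈ Rp) ∨
    (d.2 = false ∧ e.2 = false ∧ d ∈ Rp ∧ Xi Y Y d e) ∨
    (d.2 = true ∧ e.2 = false ∧ Y.rel d e)⟩

/-- The right half of an idempotent. -/
def bB (Y : Beh Q) (Rp : Set (Dart Q)) : Beh Q :=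
  ⟨fun d e => (d.2 = true ∧ e.2 = true ∧ d ∈ Rp ∧ Xi Y Y d e) ∨
    (d.2 = false ∧ e.2 = false ∧ Y.rel d e ∧ e ∈ Rp) ∨
    (d.2 = false ∧ e.2 = true ∧ Y.rel d e)⟩

section split

variable {Y : Beh Q} {Rp : Set (Dart Q)}

lemma idem_rel_of_xi (hY : Y * Y = Y) {d z e : Dart Q} (h1 : Y.rel d z) (h2 : z.2 = d.2)
    (h3 : Xi Y Y z e) : Y.rel d e := by
  obtain ⟨h4, g, h5, h6, h7⟩ := h3
  exact (inCorner_self hY).absorb_left h1 h2 h5 h7 (by rw [h6, h2]) (by rw [← h4, h2])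

/-- **The splitting.** -/
theorem ab_eq [Finite Q] (hY : Y * Y = Y) (h3 : ∀ r, Reg Y r → ∃ e ∈ Rp, Xi Y Y r e ∧ Xi Y Y e r) :
    aB Y Rp * bB Y Rp = Y := by
  have hXY := inCorner_self hY
  apply Beh.ext
  funext d e
  apply propext
  constructor
  · intro h
    rcases mul_rel_iff.1 h with h | ⟨z0, z1, h1, h2, h4⟩
    · rcases h with ⟨h1, h2, h3'⟩ | ⟨h1, h2, h3'⟩
      · rcases h3' with ⟨_, h, _⟩ | ⟨h, _⟩ | ⟨_, _, h⟩
        · rw [h2] at h; simp at h
        · rw [h1] at h; simp at h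
        · exact h
      · rcases h3' with ⟨h, _⟩ | ⟨_, h, _⟩ | ⟨_, _, h⟩
        · rw [h1] at h; simp at h
        · rw [h2] at h; simp at h
        · exact h
    · -- no hop is possible
      have hz : z0 = z1 := by
        cases ReflTransGen.cases_head h2 with
        | inl h => exact h
        | inr h =>
          obtain ⟨c, hc, _⟩ := h
          exfalso
          rcases hc with ⟨h5, h6, h7⟩ | ⟨h5, h6, h7⟩
          · rcases h7 with ⟨_, h, _⟩ | ⟨h, _⟩ | ⟨h, _⟩ <;> simp_all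
          · rcases h7 with ⟨h, _⟩ | ⟨_, h, _⟩ | ⟨_, h, _⟩ <;> simp_all
      subst hz
      have h5 : Y.rel d z0 ∧ z0.2 = d.2 := by
        rcases h1 with ⟨h5, h6, h7⟩ | ⟨h5, h6, h7⟩
        · rcases h7 with ⟨_, _, h, _⟩ | ⟨h, _⟩ | ⟨_, h, _⟩
          · exact ⟨h, by rw [h5, h6]⟩
          · simp_all
          · simp_all
        · rcases h7 with ⟨h, _⟩ | ⟨_, _, h, _⟩ | ⟨_, h, _⟩
          · simp_all
          · exact ⟨h, by rw [h5, h6]⟩
          · simp_all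
      have h6 : Xi Y Y z0 e := by
        rcases h4 with ⟨h5', h6', h7⟩ | ⟨h5', h6', h7⟩
        · rcases h7 with ⟨_, _, _, h⟩ | ⟨h, _⟩ | ⟨h, _⟩
          · exact h
          · simp_all
          · simp_all
        · rcases h7 with ⟨h, _⟩ | ⟨_, _, _, h⟩ | ⟨_, h, _⟩
          · simp_all
          · exact h
          · simp_all
      exact idem_rel_of_xi hY h5.1 h5.2 h6
  · intro h
    by_cases hde : d.2 = e.2
    · obtain ⟨r, h1, h2, h4, h5⟩ := through_factor hY h hde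
      obtain ⟨r', h6, h7, h8⟩ := h3 r h1
      have h9 : Y.rel d r' := idem_rel_of_xi hY h4 h2 h7
      have h10 : Xi Y Y r' e := Xi.trans_left hXY h8 h5
      have hr' : r'.2 = d.2 := by rw [← h7.dir, h2]
      cases hd : d.2 with
      | true =>
        rw [hd] at hr'
        exact mul_of_chain (Or.inl ⟨hd, hr', Or.inl ⟨hd, hr', h9, h6⟩⟩) ReflTransGen.refl
          (Or.inl ⟨hr', by rw [← hde, hd], Or.inl ⟨hr', by rw [← hde, hd], h6, h10⟩⟩)
      | false =>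
        rw [hd] at hr'
        exact mul_of_chain (Or.inr ⟨hd, hr', Or.inr (Or.inl ⟨hd, hr', h9, h6⟩)⟩) ReflTransGen.refl
          (Or.inr ⟨hr', by rw [← hde, hd], Or.inr (Or.inl ⟨hr', by rw [← hde, hd], h6, h10⟩)⟩)
    · apply mul_of_noCross
      cases hd : d.2 with
      | true =>
        have he : e.2 = false := by
          rw [hd] at hde
          simpa using hde ∘ Eq.symm
        exact Or.inl ⟨hd, he, Or.inr (Or.inr ⟨hd, he, h⟩)⟩
      | false =>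
        have he : e.2 = true := by
          rw [hd] at hde
          simpa using hde ∘ Eq.symm
        exact Or.inr ⟨hd, he, Or.inr (Or.inr ⟨hd, he, h⟩)⟩

end split

end Crest.Agent.NF
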