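import Crest.Agent.Lib.NF.Unit

/-!
The potential lemma, #2142 (3): passing to the corner of `y`, with `y` fixing what all of `Gs` fix,
`2 |Non'_b| + |K_b y| ≤ 2 |Non_b|`.
-/

set_option autoImplicit false

namespace Crest.Agent.NF

open Crest.Agent.Lib.TwoWayBeh (Dart Walk Beh starRel)
open Relation

universe u

variable {Q : Type u} {H : Type}

namespace Level

/-- Darts of the level of direction `b` not fixed by some member of `Gs`. -/
def Non (L : Level Q H) (b : Bool) (Gs : Set L.T) : Set (Dart Q) :=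
  {d | d ∈ L.S ∧ d.2 = b ∧ ∃ G ∈ Gs, ¬ L.Fix G d}

/-- The list of a dart `e` at the cut `Y|Y`, in the direction of `e`. -/
def crossList (Y : Beh Q) (e : Dart Q) : Set (Dart Q) :=
  {z | z.2 = e.2 ∧ ∃ g, ReflTransGen (Hop Y Y) e g ∧ g.2 = e.2 ∧ On Y Y g e z}

section beh

variable {Y : Beh Q}

/-- A crossing dart on a through chain of `Y * Y` fixed by `Y`: the prefix is an arc of `Y`. -/
lemma rel_prefix (hY : Y * Y = Y) {g e z : Dart Q} (h : On Y Y g e z)
    (hfix : Y.rel z z) : Y.rel g z := by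
  obtain ⟨z0, _, h1, h2, _, _⟩ := h
  have hL : Last Y Y z z := by
    cases hz : z.2 with
    | true => exact Or.inl ⟨hz, hz, hfix⟩
    | false => exact Or.inr ⟨hz, hz, hfix⟩
  have := mul_of_chain h1 h2 hL
  rwa [hY] at this

/-- A crossing dart on a through chain of `Y * Y` fixed by `Y`: the suffix is an arc of `Y`. -/
lemma rel_suffix (hY : Y * Y = Y) {g e z : Dart Q} (h : On Y Y g e z)
    (hfix : Y.rel z z) : Y.rel z e := by
  obtain ⟨_, z1, _, _, h3, h4⟩ := h
  have hF : First Y Y z z := by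
    cases hz : z.2 with
    | true => exact Or.inl ⟨hz, hz, hfix⟩
    | false => exact Or.inr ⟨hz, hz, hfix⟩
  have := mul_of_chain hF h3 h4
  rwa [hY] at this

lemma first_rel {g z : Dart Q} (h : First Y Y g z) : Y.rel g z := by
  rcases h with ⟨_, _, h⟩ | ⟨_, _, h⟩ <;> exact h

lemma last_rel {z e : Dart Q} (h : Last Y Y z e) : Y.rel z e := by
  rcases h with ⟨_, _, h⟩ | ⟨_, _, h⟩ <;> exact h

/-- Three same-direction arcs compose in `Y * (G * Y)`. -/
lemma sand_rel {G : Beh Q} {g z e : Dart Q} (h1 : Y.rel g z) (h2 : G.rel z z) (h3 : Y.rel z e)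
    (hg : g.2 = z.2) (he : e.2 = z.2) : (Y * (G * Y)).rel g e := by
  cases hz : z.2 with
  | true =>
    rw [hz] at hg he
    have h4 : (G * Y).rel z e :=
      mul_of_chain (Or.inl ⟨hz, hz, h2⟩) ReflTransGen.refl (Or.inl ⟨hz, he, h3⟩)
    exact mul_of_chain (Or.inl ⟨hg, hz, h1⟩) ReflTransGen.refl (Or.inl ⟨hz, he, h4⟩)
  | false =>
    rw [hz] at hg he
    have h4 : (G * Y).rel g z :=
      mul_of_chain (Or.inr ⟨hg, hz, h1⟩) ReflTransGen.refl (Or.inr ⟨hz, hz, h2⟩)
    exact mul_of_chain (Or.inr ⟨hg, hz, h4⟩) ReflTransGen.refl (Or.inr ⟨hz, he, h3⟩)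

/-- A regular dart has a first and a last crossing dart in its list. -/
lemma crossList_ends (hY : Y * Y = Y) {e : Dart Q} (hreg : Reg Y e) :
    ∃ g z0 z1, ReflTransGen (Hop Y Y) e g ∧ g.2 = e.2 ∧ First Y Y g z0 ∧
      ReflTransGen (Hop Y Y) z0 z1 ∧ Last Y Y z1 e ∧ z0 ∈ crossList Y e ∧ z1 ∈ crossList Y e := by
  obtain ⟨_, g, h1, h2, h3⟩ := hreg
  have h4 : (Y * Y).rel g e := by rw [hY]; exact h3
  obtain ⟨z0, z1, h5, h6, h7⟩ := mul_through h4 h2
  refine ⟨g, z0, z1, h1, h2, h5, h6, h7, ⟨?_, g, h1, h2, z0, z1, h5, ReflTransGen.refl, h6, h7⟩,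
    ⟨h7.dir, g, h1, h2, z0, z1, h5, h6, ReflTransGen.refl, h7⟩⟩
  rw [← h5.dir, h2]

/-- Two darts sharing a crossing dart are `Xi`-related. -/
lemma crossList_xi (hY : Y * Y = Y) {e e' z : Dart Q} (hz : z ∈ crossList Y e)
    (hz' : z ∈ crossList Y e') : Xi Y Y e e' := by
  obtain ⟨h1, g, h2, h3, h4⟩ := hz
  obtain ⟨h5, _, _, _, h8⟩ := hz'
  refine ⟨by rw [← h1, h5], g, h2, h3, ?_⟩
  have := h4.cross h8
  rwa [hY] at this

/-- A clean crossing dart makes `e` clean. -/
lemma crossList_clean (hY : Y * Y = Y) {G : Beh Q} {e z : Dart Q} (hz : z ∈ crossList Y e)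
    (hfix : Y.rel z z) (hG : G.rel z z) : Xi Y (Y * (G * Y)) e e := by
  obtain ⟨h1, g, h2, h3, h4⟩ := hz
  exact ⟨rfl, g, h2, h3, sand_rel (rel_prefix hY h4 hfix) hG (rel_suffix hY h4 hfix)
    (by rw [h3, h1]) h1.symm⟩

/-- A crossing dart that is alone in its list is fixed by `Y`. -/
lemma crossList_single (hY : Y * Y = Y) {e z : Dart Q} (hreg : Reg Y e)
    (huniq : ∀ w ∈ crossList Y e, w = z) : Y.rel z z := by
  obtain ⟨g, z0, z1, h1, h2, h3, h4, h5, h6, h7⟩ := crossList_ends hY hreg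
  rw [huniq z0 h6] at h3
  rw [huniq z1 h7] at h5
  have hze : z.2 = e.2 := h5.dir
  have hF : First Y Y z e := by
    cases hz : z.2 with
    | true => exact Or.inl ⟨hz, by rw [← hze, hz], last_rel h5⟩
    | false => exact Or.inr ⟨hz, by rw [← hze, hz], last_rel h5⟩
  have hL : Last Y Y g z := by
    have hgz : g.2 = z.2 := by rw [h2, hze]
    cases hz : z.2 with
    | true => exact Or.inl ⟨by rw [hgz, hz], hz, first_rel h3⟩
    | false => exact Or.inr ⟨by rw [hgz, hz], hz, first_rel h3⟩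
  have := mul_of_chain hF h1 hL
  rwa [hY] at this

end beh

variable (L : Level Q H) [Finite Q]

/-- **The potential lemma.** -/
theorem potential {y : L.T} (hy : y * y = y) (Gs : Set L.T)
    (hfix : ∀ d ∈ L.S, (∀ G ∈ Gs, L.Fix G d) → L.Fix y d) (b : Bool) :
    2 * ((L.corner hy).Non b (Cor.sand hy '' Gs)).ncard + (L.K b y).ncard ≤
      2 * (L.Non b Gs).ncard := by
  classical
  have hY : L.δ y * L.δ y = L.δ y := L.δ_idem hy
  rw [Set.ncard_eq_toFinset_card _ (Set.toFinite _), Set.ncard_eq_toFinset_card _ (Set.toFinite _),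
    Set.ncard_eq_toFinset_card _ (Set.toFinite _)]
  -- unfold membership in the corner
  have hNon' : ∀ e, e ∈ (L.corner hy).Non b (Cor.sand hy '' Gs) →
      e ∈ L.rp hy ∧ e.2 = b ∧ ∃ G ∈ Gs, ¬ Xi (L.δ y) (L.δ y * (L.δ G * L.δ y)) e e := by
    rintro e ⟨h1, h2, x, ⟨G, hG, rfl⟩, h3⟩
    refine ⟨h1, h2, G, hG, fun h4 => h3 ?_⟩
    refine (L.corner_through hy (Cor.sand hy G) rfl).2 ⟨h1, h1, ?_⟩
    change Xi (L.δ y) (L.δ (y * (G * y))) e e
    rw [L.δ_mul, L.δ_mul]
    exact h4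
  refine Crest.Agent.Lib.NF.potential_count _ _ _
    (fun e => (Set.toFinite (crossList (L.δ y) e)).toFinset) ?_ ?_ ?_ ?_ ?_
  · -- lists are nonempty
    intro e he
    rw [Set.Finite.mem_toFinset] at he
    obtain ⟨h1, _, _⟩ := hNon' e he
    obtain ⟨g, z0, z1, _, _, _, _, _, h6, _⟩ := crossList_ends hY (L.rp_reg hy e h1)
    exact ⟨z0, (Set.Finite.mem_toFinset _).2 h6⟩
  · -- lists consist of unclean darts
    intro e he z hz
    rw [Set.Finite.mem_toFinset] at he hz ⊢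
    obtain ⟨h1, h2, G, hG, h3⟩ := hNon' e he
    obtain ⟨h4, g, h5, h6, h7⟩ := id hz
    have hzS : z ∈ L.S := on_sup h7
    refine ⟨hzS, by rw [h4, h2], ?_⟩
    by_contra hcon
    push Not at hcon
    exact h3 (crossList_clean hY hz (hfix z hzS hcon) (hcon G hG))
  · -- lists are disjoint
    intro e he e' he' hne'
    rw [Set.Finite.mem_toFinset] at he he'
    rw [Finset.disjoint_left]
    intro z hz hz'
    rw [Set.Finite.mem_toFinset] at hz hz'
    exact hne' (L.rp_anti hy e (hNon' e he).1 e' (hNon' e' he').1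
      (crossList_xi hY hz hz') (crossList_xi hY hz' hz))
  · -- `K ⊆ Non`
    intro d hd
    rw [Set.Finite.mem_toFinset] at hd ⊢
    obtain ⟨h1, h2, h3⟩ := hd
    refine ⟨h1, h2, ?_⟩
    by_contra hcon
    push Not at hcon
    exact h3 (hfix d h1 hcon)
  · -- singleton lists avoid `K`
    intro e he hcard
    rw [Set.Finite.mem_toFinset] at he
    rw [Finset.disjoint_left]
    intro z hz hzK
    rw [Set.Finite.mem_toFinset] at hz hzK
    obtain ⟨w, hw⟩ := Finset.card_eq_one.1 hcard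
    have huniq : ∀ v ∈ crossList (L.δ y) e, v = z := by
      intro v hv
      have h1 : v ∈ (Set.toFinite (crossList (L.δ y) e)).toFinset :=
        (Set.Finite.mem_toFinset _).2 hv
      have h2 : z ∈ (Set.toFinite (crossList (L.δ y) e)).toFinset :=
        (Set.Finite.mem_toFinset _).2 hz
      rw [hw] at h1 h2
      rw [Finset.mem_singleton.1 h1, Finset.mem_singleton.1 h2]
    exact hzK.2.2 (crossList_single hY (L.rp_reg hy e (hNon' e he).1) huniq)

end Level

end Crest.Agent.NF
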