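import Crest.Agent.Lib.NF.Start
import Crest.Agent.Lib.NF.Potential

/-!
Row 294, S0444, steps (4) and (5) of the proof: the lower bound at a chain step and the chain.
-/

set_option autoImplicit false

namespace Crest.Agent.NF

open Crest.Agent.Lib.TwoWayBeh (Dart Walk Beh starRel idemPow idemPow_idem exists_idem_pow)
open Relation

universe u

variable {Q : Type u} {H : Type}

lemma mul_cod_true {U X : Beh Q} {u c : Dart Q} (h : (U * X).rel u c) (hc : c.2 = true) :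
    ∃ w, X.rel w c := by
  rcases mul_rel_iff.1 h with h | ⟨z0, z1, _, _, h3⟩
  · rcases h with ⟨_, h2, _⟩ | ⟨_, _, h3⟩
    · simp [hc] at h2
    · exact ⟨_, h3⟩
  · rcases h3 with ⟨_, _, h3⟩ | ⟨_, h2, _⟩
    · exact ⟨_, h3⟩
    · simp [hc] at h2

lemma mul_cod_false {X U : Beh Q} {u c : Dart Q} (h : (X * U).rel u c) (hc : c.2 = false) :
    ∃ w, X.rel w c := by
  rcases mul_rel_iff.1 h with h | ⟨z0, z1, _, _, h3⟩
  · rcases h with ⟨_, _, h3⟩ | ⟨_, h2, _⟩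
    · exact ⟨_, h3⟩
    · simp [hc] at h2
  · rcases h3 with ⟨_, h2, _⟩ | ⟨_, _, h3⟩
    · simp [hc] at h2
    · exact ⟨_, h3⟩

/-- A crossing dart is an output of `A` (right-going) or of `B` (left-going). -/
lemma On.output {A B : Beh Q} {d e z : Dart Q} (h : On A B d e z) :
    (z.2 = true → ∃ w, A.rel w z) ∧ (z.2 = false → ∃ w, B.rel w z) := by
  obtain ⟨z0, z1, h1, h2, _, _⟩ := h
  induction h2 with
  | refl =>
    rcases h1 with ⟨_, h4, h5⟩ | ⟨_, h4, h5⟩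
    · exact ⟨fun _ => ⟨_, h5⟩, fun h => by simp [h4] at h⟩
    · exact ⟨fun h => by simp [h4] at h, fun _ => ⟨_, h5⟩⟩
  | tail _ h3 _ =>
    rcases h3 with ⟨_, h4, h5⟩ | ⟨_, h4, h5⟩
    · exact ⟨fun h => by simp [h4] at h, fun _ => ⟨_, h5⟩⟩
    · exact ⟨fun _ => ⟨_, h5⟩, fun h => by simp [h4] at h⟩

/-- **Step (4), abstract form.** Let `v * W = 1` at a level and `W = A * B`, `X = A * t * B`.
Every dart killed by `v * X` yields a crossing dart at the cut `A | B` not fixed by `t`, injectively. -/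
theorem K_le_of_unit [Finite Q] (L : Level Q H) {v W X : L.T} {A B t : Beh Q} (hvW : v * W = 1)
    (hW : L.δ W = A * B) (hX : L.δ X = A * (t * B)) (Z : Set (Dart Q))
    (hZ : ∀ d e z, On A B d e z → z ∈ Z) (b : Bool) :
    (L.K b (v * X)).ncard ≤ {z | z ∈ Z ∧ ¬ t.rel z z}.ncard := by
  classical
  have h1 : L.δ 1 = L.δ v * L.δ W := by rw [← L.δ_mul, hvW]
  -- the bad crossing dart
  have key : ∀ d ∈ L.K b (v * X), ∃ z c, z.2 = d.2 ∧ c ∈ Z ∧ ¬ t.rel c c ∧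
      ((d.2 = true ∧ (L.δ v).rel d z ∧ On A B z d c) ∨
        (d.2 = false ∧ (L.δ v).rel z d ∧ On A B d z c)) := by
    rintro d ⟨hdS, hdb, hdk⟩
    obtain ⟨zf, hzf, _⟩ := Level.exists_unit_map hvW d.2
    obtain ⟨_, hzd, hF, hLa⟩ := hzf d hdS rfl
    generalize zf d = z at hzd hF hLa
    cases hd : d.2 with
    | true =>
      have hF' : (L.δ v).rel d z := by
        rcases hF with ⟨_, _, h⟩ | ⟨h, _, _⟩
        · exact h
        · simp [hd] at h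
      have hL' : (L.δ W).rel z d := by
        rcases hLa with ⟨_, _, h⟩ | ⟨_, h, _⟩
        · exact h
        · simp [hd] at h
      have hAB : (A * B).rel z d := by rw [← hW]; exact hL'
      by_contra hno
      apply hdk
      have hall : ∀ c, On A B z d c → t.rel c c := by
        intro c hc
        by_contra hcfix
        exact hno ⟨z, c, by rw [hzd, hd], hZ _ _ _ hc, hcfix, Or.inl ⟨rfl, hF', hc⟩⟩
      have hp := persist (by rw [hzd]) hAB hall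
      rw [← hX] at hp
      unfold Level.Fix
      rw [L.δ_mul]
      exact mul_of_chain (Or.inl ⟨hd, by rw [hzd, hd], hF'⟩) ReflTransGen.refl
        (Or.inl ⟨by rw [hzd, hd], hd, hp⟩)
    | false =>
      have hF' : (L.δ W).rel d z := by
        rcases hF with ⟨h, _, _⟩ | ⟨_, _, h⟩
        · simp [hd] at h
        · exact h
      have hL' : (L.δ v).rel z d := by
        rcases hLa with ⟨_, h, _⟩ | ⟨_, _, h⟩
        · simp [hd] at h
        · exact h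
      have hAB : (A * B).rel d z := by rw [← hW]; exact hF'
      by_contra hno
      apply hdk
      have hall : ∀ c, On A B d z c → t.rel c c := by
        intro c hc
        by_contra hcfix
        exact hno ⟨z, c, by rw [hzd, hd], hZ _ _ _ hc, hcfix, Or.inr ⟨rfl, hL', hc⟩⟩
      have hp := persist (by rw [hzd]) hAB hall
      rw [← hX] at hp
      unfold Level.Fix
      rw [L.δ_mul]
      exact mul_of_chain (Or.inr ⟨hd, by rw [hzd, hd], hp⟩) ReflTransGen.refl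
        (Or.inr ⟨by rw [hzd, hd], hd, hL'⟩)
  choose! fz fc hz1 hc2 hc3 hc4 using key
  refine Set.ncard_le_ncard_of_injOn fc (fun d hd => ⟨hc2 d hd, hc3 d hd⟩) ?_ (Set.toFinite _)
  -- injectivity
  intro d hd d' hd' hcc
  have hdb : d.2 = b := hd.2.1
  have hdb' : d'.2 = b := hd'.2.1
  have harc : ∀ d d', d ∈ L.K b (v * X) → d' ∈ L.K b (v * X) → fc d = fc d' → (L.δ 1).rel d d' := by
    intro d d' hd hd' hcc
    rw [h1]
    have h3 := hc4 d hd
    have h4 := hc4 d' hd'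
    rw [← hcc] at h4
    have hdb : d.2 = b := hd.2.1
    have hdb' : d'.2 = b := hd'.2.1
    rcases h3 with ⟨h5, h6, h7⟩ | ⟨h5, h6, h7⟩
    · rcases h4 with ⟨h8, h9, h10⟩ | ⟨h8, _, _⟩
      · have h11 := On.cross h7 h10
        rw [← hW] at h11
        exact mul_of_chain (Or.inl ⟨h5, by rw [hz1 d hd, h5], h6⟩) ReflTransGen.refl
          (Or.inl ⟨by rw [hz1 d hd, h5], h8, h11⟩)
      · rw [hdb'] at h8; rw [hdb] at h5; simp [h5] at h8
    · rcases h4 with ⟨h8, _, _⟩ | ⟨h8, h9, h10⟩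
      · rw [hdb'] at h8; rw [hdb] at h5; simp [h5] at h8
      · have h11 := On.cross h7 h10
        rw [← hW] at h11
        exact mul_of_chain (Or.inr ⟨h5, by rw [hz1 d' hd', h8], h11⟩) ReflTransGen.refl
          (Or.inr ⟨by rw [hz1 d' hd', h8], h8, h9⟩)
  exact L.anti d d' (by rw [hdb, hdb']) (harc d d' hd hd' hcc) (harc d' d hd' hd hcc.symm)

/-- The unit relation of a chain level. -/
def rel1 (S₀ T₀ C₂ : Set H) (P : H → H → Prop) (u v : H) : Prop :=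
  (u = v ∧ (u ∈ S₀ ∨ u ∈ T₀ ∨ u ∈ C₂)) ∨ P u v

/-- Hubs in three disjoint parts. -/
structure Parts (S₀ T₀ C₂ : Set H) : Prop where
  st : ∀ u, u ∈ S₀ → u ∈ T₀ → False
  sc : ∀ u, u ∈ S₀ → u ∈ C₂ → False
  tc : ∀ u, u ∈ T₀ → u ∈ C₂ → False

section hubs

variable {S₀ T₀ C₂ : Set H} {P : H → H → Prop}

/-- Relation of the connector from `p` to `s`. -/
def inRel (S₀ T₀ C₂ : Set H) (P : H → H → Prop) (p s u v : H) : Prop :=
  ∃ u' v', rel1 S₀ T₀ C₂ P u u' ∧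
    ((u' = v' ∧ (u' ∈ S₀ ∨ u' ∈ T₀ ∨ u' ∈ C₂)) ∨ (u' = p ∧ v' = s)) ∧ rel1 S₀ T₀ C₂ P v' v

lemma rel1_left (hd : Parts S₀ T₀ C₂) (hP : ∀ u v, P u v → u ∈ S₀ ∧ v ∈ T₀) {u w : H}
    (hu : u ∉ S₀) (h : rel1 S₀ T₀ C₂ P u w) : w = u := by
  rcases h with ⟨h, _⟩ | h
  · exact h.symm
  · exact absurd (hP _ _ h).1 hu

lemma rel1_right (hP : ∀ u v, P u v → u ∈ S₀ ∧ v ∈ T₀) {w v : H}
    (hv : v ∉ T₀) (h : rel1 S₀ T₀ C₂ P w v) : w = v := by
  rcases h with ⟨h, _⟩ | h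
  · exact h
  · exact absurd (hP _ _ h).2 hv

lemma rel1_refl {u : H} (h : u ∈ S₀ ∨ u ∈ T₀ ∨ u ∈ C₂) : rel1 S₀ T₀ C₂ P u u := Or.inl ⟨rfl, h⟩

/-- The hub computation of step (4): the path through the two connectors, and through `y'` with
the new arc `(s,t)`. -/
lemma hub_path (hd : Parts S₀ T₀ C₂) (hP : ∀ u v, P u v → u ∈ S₀ ∧ v ∈ T₀) {s t p q : H}
    (hs : s ∈ S₀) (ht : t ∈ T₀) (hst : ¬ P s t)
    {u w w₁ v : H} (hu : u ∈ C₂) (hv : v ∈ C₂)
    (h1 : inRel S₀ T₀ C₂ P p s u w)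
    (h2 : w₁ = w ∨ rel1 S₀ T₀ C₂ P w w₁ ∨ (w = s ∧ w₁ = t))
    (h3 : inRel S₀ T₀ C₂ P t q w₁ v) :
    (u = v) ∨ (u = p ∧ v = q ∧ w = s ∧ w₁ = t) := by
  have huS : u ∉ S₀ := fun h => hd.sc _ h hu
  have hvT : v ∉ T₀ := fun h => hd.tc _ h hv
  have htS : t ∉ S₀ := fun h => hd.st _ h ht
  have hsT : s ∉ T₀ := fun h => hd.st _ hs h
  obtain ⟨u', v1, hu1, hρ, hv1⟩ := h1
  obtain ⟨w2, v2, hw1, hρ', hv2⟩ := h3
  have e1 := rel1_left hd hP huS hu1
  subst e1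
  have e2 := rel1_right hP hvT hv2
  subst e2
  -- the second connector: `w2 = v2`, or `w2 = t` and `v2 = q`
  have hend : w2 = v2 ∨ (w2 = t ∧ v2 = q) := by
    rcases hρ' with ⟨h, _⟩ | h
    · exact Or.inl h
    · exact Or.inr h
  -- what the first connector gives
  have hstart : w = u' ∨ (u' = p ∧ (w = s ∨ P s w)) := by
    rcases hρ with ⟨rfl, _⟩ | ⟨h4, rfl⟩
    · exact Or.inl (rel1_left hd hP huS hv1)
    · refine Or.inr ⟨h4, ?_⟩
      rcases hv1 with ⟨h, _⟩ | h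
      · exact Or.inl h.symm
      · exact Or.inr h
  rcases hstart with rfl | ⟨h4, hw⟩
  · -- `w = u`
    have e3 : w₁ = w := by
      rcases h2 with h | h | ⟨h, _⟩
      · exact h
      · exact rel1_left hd hP huS h
      · exact absurd (h ▸ hs) huS
    subst e3
    have e4 := rel1_left hd hP huS hw1
    subst e4
    rcases hend with h | ⟨h, _⟩
    · exact Or.inl h
    · exact absurd (h ▸ ht) (fun h' => hd.tc _ h' hu)
  · rcases hw with rfl | hw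
    · -- `w = s`
      rcases h2 with h | h | ⟨_, h⟩
      · subst h
        exfalso
        rcases hw1 with ⟨rfl, _⟩ | h5
        · rcases hend with h | ⟨h, _⟩
          · exact hd.sc _ hs (h ▸ hv)
          · exact hsT (h ▸ ht)
        · rcases hend with h | ⟨h, _⟩
          · exact hvT (h ▸ (hP _ _ h5).2)
          · exact hst (h ▸ h5)
      · exfalso
        rcases h with ⟨rfl, _⟩ | h6
        · rcases hw1 with ⟨rfl, _⟩ | h5
          · rcases hend with h | ⟨h, _⟩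
            · exact hd.sc _ hs (h ▸ hv)
            · exact hsT (h ▸ ht)
          · rcases hend with h | ⟨h, _⟩
            · exact hvT (h ▸ (hP _ _ h5).2)
            · exact hst (h ▸ h5)
        · have hT := (hP _ _ h6).2
          have e5 := rel1_left hd hP (fun h' => hd.st _ h' hT) hw1
          subst e5
          rcases hend with h | ⟨h, _⟩
          · exact hvT (h ▸ hT)
          · exact hst (h ▸ h6)
      · subst h
        have e5 := rel1_left hd hP htS hw1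
        subst e5
        rcases hend with h | ⟨_, h⟩
        · exact absurd (h ▸ ht) hvT
        · exact Or.inr ⟨h4, h, rfl, rfl⟩
    · exfalso
      have hT := (hP _ _ hw).2
      have hwS : w ∉ S₀ := fun h' => hd.st _ h' hT
      have e3 : w₁ = w := by
        rcases h2 with h | h | ⟨h, _⟩
        · exact h
        · exact rel1_left hd hP hwS h
        · exact absurd (h ▸ hs) hwS
      subst e3
      have e4 := rel1_left hd hP hwS hw1
      subst e4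
      rcases hend with h | ⟨h, _⟩
      · exact hvT (h ▸ hT)
      · exact hst (h ▸ hw)

end hubs

/-- **Step (4).** A chain step has at least `2 ^ k` killed darts, by the induction hypothesis. -/
theorem chain_step [Finite Q] {S₀ T₀ C₂ : Set H} {P : H → H → Prop} (hd : Parts S₀ T₀ C₂)
    (hP : ∀ u v, P u v → u ∈ S₀ ∧ v ∈ T₀) (L : Level Q H)
    (h1 : ∀ u v, L.ψ 1 u v ↔ rel1 S₀ T₀ C₂ P u v) {s t : H} (hs : s ∈ S₀) (ht : t ∈ T₀)
    (hst : ¬ P s t) {y' : L.T}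
    (hy' : ∀ u v, L.ψ y' u v ↔ rel1 S₀ T₀ C₂ P u v ∨ (u = s ∧ v = t)) {k : ℕ}
    (IH : ∀ (L' : Level Q H), Arena L' C₂ → ∀ (p q : H) (F : L'.T), p ∈ C₂ → q ∈ C₂ → p ≠ q →
      (∀ a c, L'.ψ F a c ↔ (a = c ∧ a ∈ C₂) ∨ (a = p ∧ c = q)) → ∃ b, 2 ^ k ≤ (L'.K b F).ncard)
    {p q : H} (hp : p ∈ C₂) (hq : q ∈ C₂) (hpq : p ≠ q) :
    2 ^ k ≤ (L.K true y').ncard + (L.K false y').ncard := by
  classical
  have hpS : p ∉ S₀ := fun h => hd.sc _ h hp
  have hpT : p ∉ T₀ := fun h => hd.tc _ h hp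
  have hqS : q ∉ S₀ := fun h => hd.sc _ h hq
  have hqT : q ∉ T₀ := fun h => hd.tc _ h hq
  obtain ⟨E, hE, hA⟩ := exists_arena_corner L C₂ (by
    obtain ⟨x₀, hx₀⟩ := L.surj (fun p q => p = q ∧ p ∈ C₂)
    refine ⟨x₀, fun a c => (hx₀ a c).trans ?_⟩
    simp only [h1]
    constructor
    · rintro ⟨p', q', h3, ⟨rfl, h4⟩, h5⟩
      have e1 := rel1_right (C₂ := C₂) hP (fun h => hd.tc _ h h4) h3
      have e2 := rel1_left hd hP (fun h => hd.sc _ h h4) h5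
      subst e1
      exact ⟨e2.symm, h4⟩
    · rintro ⟨rfl, h3⟩
      exact ⟨a, a, rel1_refl (Or.inr (Or.inr h3)), ⟨rfl, h3⟩, rel1_refl (Or.inr (Or.inr h3))⟩)
  have hEψ : ∀ a c, L.ψ E a c ↔ a = c ∧ a ∈ C₂ := hA.one
  obtain ⟨Sp, hSp⟩ := L.surj (fun u' v' => (u' = v' ∧ (u' ∈ S₀ ∨ u' ∈ T₀ ∨ u' ∈ C₂)) ∨ (u' = p ∧ v' = s))
  obtain ⟨Rq, hRq⟩ := L.surj (fun u' v' => (u' = v' ∧ (u' ∈ S₀ ∨ u' ∈ T₀ ∨ u' ∈ C₂)) ∨ (u' = t ∧ v' = q))
  have hSp' : ∀ a c, L.ψ Sp a c ↔ inRel S₀ T₀ C₂ P p s a c := by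
    intro a c
    rw [hSp]
    simp only [h1, inRel]
  have hRq' : ∀ a c, L.ψ Rq a c ↔ inRel S₀ T₀ C₂ P t q a c := by
    intro a c
    rw [hRq]
    simp only [h1, inRel]
  have hsand : ∀ (x : L.T) (a c : H), L.ψ (E * (x * E)) a c ↔ a ∈ C₂ ∧ c ∈ C₂ ∧ L.ψ x a c := by
    intro x a c
    simp only [L.ψ_mul, hEψ]
    constructor
    · rintro ⟨b, ⟨rfl, h3⟩, b', h4, rfl, h5⟩
      exact ⟨h3, h5, h4⟩
    · rintro ⟨h3, h4, h5⟩
      exact ⟨a, ⟨rfl, h3⟩, c, h5, rfl, h4⟩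
  have hreflS : ∀ u, (u ∈ S₀ ∨ u ∈ T₀ ∨ u ∈ C₂) → rel1 S₀ T₀ C₂ P u u := fun u h => rel1_refl h
  have hinC : ∀ {a b : H} (u : H), (u ∈ S₀ ∨ u ∈ T₀ ∨ u ∈ C₂) → (a = u) → (b = u) →
      inRel S₀ T₀ C₂ P a b u u := by
    intro a b u h _ _
    exact ⟨u, u, rel1_refl h, Or.inl ⟨rfl, h⟩, rel1_refl h⟩
  -- the element `W`
  let W : (L.corner hE).T := Cor.sand hE (Sp * Rq)
  let X : (L.corner hE).T := Cor.sand hE (Sp * (y' * Rq))
  have hWψ : ∀ a c, (L.corner hE).ψ W a c ↔ a = c ∧ a ∈ C₂ := by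
    intro a c
    change L.ψ (E * ((Sp * Rq) * E)) a c ↔ _
    rw [hsand, L.ψ_mul]
    constructor
    · rintro ⟨h3, h4, w, h5, h6⟩
      rcases hub_path hd hP hs ht hst h3 h4 ((hSp' _ _).1 h5) (Or.inl rfl) ((hRq' _ _).1 h6) with
        h | ⟨_, _, h7, h8⟩
      · exact ⟨h, h3⟩
      · exact absurd (h7.symm.trans h8 ▸ hs) (fun h' => hd.st _ h' ht)
    · rintro ⟨rfl, h3⟩
      have hc : a ∈ S₀ ∨ a ∈ T₀ ∨ a ∈ C₂ := Or.inr (Or.inr h3)
      exact ⟨h3, h3, a, (hSp' _ _).2 ⟨a, a, rel1_refl hc, Or.inl ⟨rfl, hc⟩, rel1_refl hc⟩,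
        (hRq' _ _).2 ⟨a, a, rel1_refl hc, Or.inl ⟨rfl, hc⟩, rel1_refl hc⟩⟩
  have hXψ : ∀ a c, (L.corner hE).ψ X a c ↔ (a = c ∧ a ∈ C₂) ∨ (a = p ∧ c = q) := by
    intro a c
    change L.ψ (E * ((Sp * (y' * Rq)) * E)) a c ↔ _
    rw [hsand, L.ψ_mul]
    constructor
    · rintro ⟨h3, h4, w, h5, h6⟩
      rw [L.ψ_mul] at h6
      obtain ⟨w₁, h7, h8⟩ := h6
      rcases hub_path hd hP hs ht hst h3 h4 ((hSp' _ _).1 h5) (Or.inr ((hy' _ _).1 h7))
        ((hRq' _ _).1 h8) with h | ⟨h9, h10, _, _⟩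
      · exact Or.inl ⟨h, h3⟩
      · exact Or.inr ⟨h9, h10⟩
    · rintro (⟨rfl, h3⟩ | ⟨rfl, rfl⟩)
      · have hc : a ∈ S₀ ∨ a ∈ T₀ ∨ a ∈ C₂ := Or.inr (Or.inr h3)
        refine ⟨h3, h3, a, (hSp' _ _).2 ⟨a, a, rel1_refl hc, Or.inl ⟨rfl, hc⟩, rel1_refl hc⟩, ?_⟩
        rw [L.ψ_mul]
        exact ⟨a, (hy' _ _).2 (Or.inl (rel1_refl hc)),
          (hRq' _ _).2 ⟨a, a, rel1_refl hc, Or.inl ⟨rfl, hc⟩, rel1_refl hc⟩⟩
      · refine ⟨hp, hq, s, (hSp' _ _).2 ⟨a, s, rel1_refl (Or.inr (Or.inr hp)), Or.inr ⟨rfl, rfl⟩,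
          rel1_refl (Or.inl hs)⟩, ?_⟩
        rw [L.ψ_mul]
        exact ⟨t, (hy' _ _).2 (Or.inr ⟨rfl, rfl⟩),
          (hRq' _ _).2 ⟨t, c, rel1_refl (Or.inr (Or.inl ht)), Or.inr ⟨rfl, rfl⟩,
            rel1_refl (Or.inr (Or.inr hq))⟩⟩
  obtain ⟨v, hvW, _⟩ := hA.unit W hWψ
  -- the relation of `v`
  have hvψ : ∀ a c, (L.corner hE).ψ v a c ↔ a = c ∧ a ∈ C₂ := by
    intro a c
    have hv1 := hA.one a c
    rw [← hvW, (L.corner hE).ψ_mul] at hv1
    constructor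
    · intro h3
      have h4 : c ∈ C₂ := by
        have h5 : L.ψ (v.1 * E) a c := by rw [v.2.2]; exact h3
        rw [L.ψ_mul] at h5
        obtain ⟨b, _, h6⟩ := h5
        exact ((hEψ _ _).1 h6).1 ▸ ((hEψ _ _).1 h6).2
      exact hv1.1 ⟨c, h3, (hWψ _ _).2 ⟨rfl, h4⟩⟩
    · rintro ⟨rfl, h3⟩
      obtain ⟨m, h4, h5⟩ := hv1.2 ⟨rfl, h3⟩
      obtain ⟨rfl, _⟩ := (hWψ _ _).1 h5
      exact h4
  have hFψ : ∀ a c, (L.corner hE).ψ (v * X) a c ↔ (a = c ∧ a ∈ C₂) ∨ (a = p ∧ c = q) := by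
    intro a c
    rw [(L.corner hE).ψ_mul]
    constructor
    · rintro ⟨m, h3, h4⟩
      obtain ⟨rfl, _⟩ := (hvψ _ _).1 h3
      exact (hXψ _ _).1 h4
    · intro h3
      have ha : a ∈ C₂ := by
        rcases h3 with ⟨_, h⟩ | ⟨rfl, _⟩
        · exact h
        · exact hp
      exact ⟨a, (hvψ _ _).2 ⟨rfl, ha⟩, (hXψ _ _).2 h3⟩
  obtain ⟨b, hb⟩ := IH (L.corner hE) hA p q (v * X) hp hq hpq hFψ
  -- the behaviours
  set A : Beh Q := bB (L.δ E) (L.rp hE) * (L.δ E * L.δ Sp) with hAdef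
  set B : Beh Q := L.δ Rq * (L.δ E * aB (L.δ E) (L.rp hE)) with hBdef
  have hWδ : (L.corner hE).δ W = A * B := by
    change bB (L.δ E) (L.rp hE) * (L.δ (E * ((Sp * Rq) * E)) * aB (L.δ E) (L.rp hE)) = _
    simp only [L.δ_mul, mul_assoc, hAdef, hBdef]
  have hXδ : (L.corner hE).δ X = A * (L.δ y' * B) := by
    change bB (L.δ E) (L.rp hE) * (L.δ (E * ((Sp * (y' * Rq)) * E)) * aB (L.δ E) (L.rp hE)) = _
    simp only [L.δ_mul, mul_assoc, hAdef, hBdef]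
  have hZ : ∀ d e z, On A B d e z → z ∈ L.S := by
    intro d e z hz
    obtain ⟨h3, h4⟩ := hz.output
    cases hzb : z.2 with
    | true =>
      obtain ⟨w, hw⟩ := h3 hzb
      obtain ⟨w', hw'⟩ := mul_cod_true hw hzb
      obtain ⟨w'', hw''⟩ := mul_cod_true hw' hzb
      exact (L.sup _ _ _ hw'').2
    | false =>
      obtain ⟨w, hw⟩ := h4 hzb
      obtain ⟨w', hw'⟩ := mul_cod_false hw hzb
      exact (L.sup _ _ _ hw').2
  have hle := K_le_of_unit (L.corner hE) hvW hWδ hXδ L.S hZ b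
  have hsub : {z | z ∈ L.S ∧ ¬ (L.δ y').rel z z} ⊆ L.K true y' ∪ L.K false y' := by
    rintro z ⟨h3, h4⟩
    cases hzb : z.2 with
    | true => exact Or.inl ⟨h3, hzb, h4⟩
    | false => exact Or.inr ⟨h3, hzb, h4⟩
  calc 2 ^ k ≤ ((L.corner hE).K b (v * X)).ncard := hb
    _ ≤ {z | z ∈ L.S ∧ ¬ (L.δ y').rel z z}.ncard := hle
    _ ≤ (L.K true y' ∪ L.K false y').ncard := Set.ncard_le_ncard hsub (Set.toFinite _)
    _ ≤ _ := Set.ncard_union_le _ _

/-! ### Step (5): the chain -/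

section chain

variable {S₀ T₀ C₂ : Set H} {P : H → H → Prop}

lemma rel1_trans (hd : Parts S₀ T₀ C₂) (hP : ∀ u v, P u v → u ∈ S₀ ∧ v ∈ T₀) {u w v : H}
    (h1 : rel1 S₀ T₀ C₂ P u w) (h2 : rel1 S₀ T₀ C₂ P w v) : rel1 S₀ T₀ C₂ P u v := by
  rcases h1 with ⟨rfl, _⟩ | h1
  · exact h2
  · rcases h2 with ⟨rfl, _⟩ | h2
    · exact Or.inr h1
    · exact (hd.st _ (hP _ _ h2).1 (hP _ _ h1).2).elim

lemma rel1_mem_right (hP : ∀ u v, P u v → u ∈ S₀ ∧ v ∈ T₀) {u v : H}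
    (h1 : rel1 S₀ T₀ C₂ P u v) : v ∈ S₀ ∨ v ∈ T₀ ∨ v ∈ C₂ := by
  rcases h1 with ⟨rfl, h⟩ | h
  · exact h
  · exact Or.inr (Or.inl (hP _ _ h).2)

lemma rel1_mem_left (hP : ∀ u v, P u v → u ∈ S₀ ∧ v ∈ T₀) {u v : H}
    (h1 : rel1 S₀ T₀ C₂ P u v) : u ∈ S₀ ∨ u ∈ T₀ ∨ u ∈ C₂ := by
  rcases h1 with ⟨rfl, h⟩ | h
  · exact h
  · exact Or.inl (hP _ _ h).1

/-- The relation of a power of an element of idempotent relation. -/
lemma psi_pow (L : Level Q H) {x : L.T} {R : H → H → Prop} (hx : ∀ u v, L.ψ x u v ↔ R u v)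
    (hR : ∀ u v, (∃ w, R u w ∧ R w v) ↔ R u v) (n : ℕ) :
    ∀ u v, L.ψ (x ^ (n + 1)) u v ↔ R u v := by
  induction n with
  | zero => intro u v; simpa using hx u v
  | succ n ih =>
    intro u v
    rw [pow_succ, L.ψ_mul]
    simp only [ih, hx]
    exact hR u v

/-- The relation of `rel1` with a new arc. -/
def rel2 (S₀ T₀ C₂ : Set H) (P : H → H → Prop) (s t u v : H) : Prop :=
  rel1 S₀ T₀ C₂ P u v ∨ (u = s ∧ v = t)

lemma rel2_idem (hd : Parts S₀ T₀ C₂) (hP : ∀ u v, P u v → u ∈ S₀ ∧ v ∈ T₀) {s t : H}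
    (hs : s ∈ S₀) (ht : t ∈ T₀) (u v : H) :
    (∃ w, rel2 S₀ T₀ C₂ P s t u w ∧ rel2 S₀ T₀ C₂ P s t w v) ↔ rel2 S₀ T₀ C₂ P s t u v := by
  constructor
  · rintro ⟨w, h1 | ⟨rfl, rfl⟩, h2 | ⟨rfl, rfl⟩⟩
    · exact Or.inl (rel1_trans hd hP h1 h2)
    · have e := rel1_right (C₂ := C₂) hP (fun h => hd.st _ hs h) h1
      exact Or.inr ⟨e, rfl⟩
    · have e := rel1_left hd hP (fun h => hd.st _ h ht) h2
      exact Or.inr ⟨rfl, e⟩
    · exact (hd.st _ hs ht).elim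
  · rintro (h | ⟨rfl, rfl⟩)
    · exact ⟨v, Or.inl h, Or.inl (rel1_refl (rel1_mem_right hP h))⟩
    · exact ⟨v, Or.inr ⟨rfl, rfl⟩, Or.inl (rel1_refl (Or.inr (Or.inl ht)))⟩

lemma rel1_add (u v s t : H) :
    rel1 S₀ T₀ C₂ (fun a c => P a c ∨ (a = s ∧ c = t)) u v ↔ rel2 S₀ T₀ C₂ P s t u v := by
  simp only [rel1, rel2, or_assoc]

/-- **Step (5): the chain.** -/
theorem chain_bound [Finite Q] (hd : Parts S₀ T₀ C₂) (N : ℕ)
    (hstep : ∀ (L : Level Q H) (P : H → H → Prop), (∀ u v, P u v → u ∈ S₀ ∧ v ∈ T₀) →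
      (∀ u v, L.ψ 1 u v ↔ rel1 S₀ T₀ C₂ P u v) → ∀ s t, s ∈ S₀ → t ∈ T₀ → ¬ P s t →
      ∀ y' : L.T, (∀ u v, L.ψ y' u v ↔ rel1 S₀ T₀ C₂ P u v ∨ (u = s ∧ v = t)) →
      N ≤ (L.K true y').ncard + (L.K false y').ncard) :
    ∀ (arcs : List (H × H)) (L : Level Q H) (P : H → H → Prop)
      (_ : ∀ u v, P u v → u ∈ S₀ ∧ v ∈ T₀) (_ : ∀ u v, L.ψ 1 u v ↔ rel1 S₀ T₀ C₂ P u v)
      (G : H × H → L.T), arcs.Nodup → (∀ a ∈ arcs, a.1 ∈ S₀ ∧ a.2 ∈ T₀ ∧ ¬ P a.1 a.2) →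
      (∀ a ∈ arcs, ∀ u v, L.ψ (G a) u v ↔ rel1 S₀ T₀ C₂ P u v ∨ (u = a.1 ∧ v = a.2)) →
      arcs.length * N ≤ 2 * ((L.Non true (G '' {a | a ∈ arcs})).ncard +
        (L.Non false (G '' {a | a ∈ arcs})).ncard) := by
  intro arcs
  induction arcs with
  | nil => intro L P _ _ G _ _ _; simp
  | cons a₀ rest ih =>
    intro L P hP h1 G hnd harcs hG
    obtain ⟨s, t⟩ := a₀
    have hs : s ∈ S₀ := (harcs (s, t) (by simp)).1
    have ht : t ∈ T₀ := (harcs (s, t) (by simp)).2.1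
    have hst : ¬ P s t := (harcs (s, t) (by simp)).2.2
    -- the idempotent
    obtain ⟨hn0, hidem⟩ := Classical.choose_spec (exists_idem_pow (G (s, t)))
    obtain ⟨n, hn⟩ : ∃ n, Classical.choose (exists_idem_pow (G (s, t))) = n + 1 :=
      ⟨Classical.choose (exists_idem_pow (G (s, t))) - 1, by omega⟩
    have hy'def : idemPow (G (s, t)) = G (s, t) ^ (n + 1) := by
      unfold idemPow
      rw [hn]
    have hy : idemPow (G (s, t)) * idemPow (G (s, t)) = idemPow (G (s, t)) := idemPow_idem _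
    set y' := idemPow (G (s, t)) with hy'
    have hψy : ∀ u v, L.ψ y' u v ↔ rel1 S₀ T₀ C₂ P u v ∨ (u = s ∧ v = t) := by
      rw [hy'def]
      exact psi_pow L (R := rel2 S₀ T₀ C₂ P s t) (hG (s, t) (by simp))
        (rel2_idem hd hP hs ht) n
    have hk := hstep L P hP h1 s t hs ht hst y' hψy
    -- the next level
    let P' : H → H → Prop := fun a c => P a c ∨ (a = s ∧ c = t)
    have hP' : ∀ u v, P' u v → u ∈ S₀ ∧ v ∈ T₀ := by
      rintro u v (h | ⟨rfl, rfl⟩)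
      · exact hP _ _ h
      · exact ⟨hs, ht⟩
    have h1' : ∀ u v, (L.corner hy).ψ 1 u v ↔ rel1 S₀ T₀ C₂ P' u v := by
      intro u v
      exact (hψy u v).trans (rel1_add u v s t).symm
    let G' : H × H → (L.corner hy).T := fun a => Cor.sand hy (G a)
    have hnd' : rest.Nodup := (List.nodup_cons.1 hnd).2
    have hne : ∀ a ∈ rest, a ≠ (s, t) := by
      intro a ha h
      exact (List.nodup_cons.1 hnd).1 (h ▸ ha)
    have harcs' : ∀ a ∈ rest, a.1 ∈ S₀ ∧ a.2 ∈ T₀ ∧ ¬ P' a.1 a.2 := by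
      intro a ha
      obtain ⟨h2, h3, h4⟩ := harcs a (List.mem_cons_of_mem _ ha)
      refine ⟨h2, h3, ?_⟩
      rintro (h | ⟨h5, h6⟩)
      · exact h4 h
      · exact hne a ha (Prod.ext h5 h6)
    have hG' : ∀ a ∈ rest, ∀ u v, (L.corner hy).ψ (G' a) u v ↔
        rel1 S₀ T₀ C₂ P' u v ∨ (u = a.1 ∧ v = a.2) := by
      intro a ha u v
      obtain ⟨ha1, ha2, _⟩ := harcs' a ha
      have hR := fun u v => (hψy u v).trans (rel1_add u v s t).symm
      change L.ψ (y' * (G a * y')) u v ↔ _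
      simp only [L.ψ_mul, hR, hG a (List.mem_cons_of_mem _ ha)]
      constructor
      · rintro ⟨w, h2, w', h3, h4⟩
        rcases h3 with h3 | ⟨rfl, rfl⟩
        · have h5 : rel1 S₀ T₀ C₂ P' w w' := by
            rcases h3 with h3 | h3
            · exact Or.inl h3
            · exact Or.inr (Or.inl h3)
          exact Or.inl (rel1_trans hd hP' (rel1_trans hd hP' h2 h5) h4)
        · have e1 := rel1_right (C₂ := C₂) hP' (fun h => hd.st _ ha1 h) h2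
          have e2 := rel1_left hd hP' (fun h => hd.st _ h ha2) h4
          exact Or.inr ⟨e1, e2⟩
      · rintro (h2 | ⟨rfl, rfl⟩)
        · have hv := rel1_mem_right hP' h2
          exact ⟨v, h2, v, Or.inl (rel1_refl hv), rel1_refl hv⟩
        · exact ⟨a.1, rel1_refl (Or.inl ha1), a.2, Or.inr ⟨rfl, rfl⟩,
            rel1_refl (Or.inr (Or.inl ha2))⟩
    have hIH := ih (L.corner hy) P' hP' h1' G' hnd' harcs' hG'
    -- the potential
    have hfix : ∀ d ∈ L.S, (∀ G₁ ∈ G '' {a | a ∈ (s, t) :: rest}, L.Fix G₁ d) → L.Fix y' d := by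
      intro d hd' hall
      rw [hy'def]
      exact Level.fix_pow hd' (hall _ ⟨(s, t), by simp, rfl⟩) _
    have hpot := fun b => Level.potential L hy (G '' {a | a ∈ (s, t) :: rest}) hfix b
    have hmono : ∀ b, ((L.corner hy).Non b (G' '' {a | a ∈ rest})).ncard ≤
        ((L.corner hy).Non b (Cor.sand hy '' (G '' {a | a ∈ (s, t) :: rest}))).ncard := by
      intro b
      apply Set.ncard_le_ncard _ (Set.toFinite _)
      rintro d ⟨h2, h3, _, ⟨a, ha, rfl⟩, h4⟩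
      exact ⟨h2, h3, _, ⟨_, ⟨a, List.mem_cons_of_mem _ ha, rfl⟩, rfl⟩, h4⟩
    have e1 := hpot true
    have e2 := hpot false
    have e3 := hmono true
    have e4 := hmono false
    rw [List.length_cons, Nat.add_mul, one_mul]
    omega

end chain

/-! ### The induction -/

/-- Base: an arc lift kills something. -/
theorem kappa_base [Finite Q] [Finite H] {L : Level Q H} {C : Set H} (hA : Arena L C) {F : L.T} {x y : H}
    (hF : ∀ a c, L.ψ F a c ↔ (a = c ∧ a ∈ C) ∨ (a = x ∧ c = y)) (hxy : x ≠ y) :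
    ∃ b, 1 ≤ (L.K b F).ncard := by
  by_contra hno
  push Not at hno
  have hall : ∀ d ∈ L.S, L.Fix F d := by
    intro d hd
    by_contra hk
    have hmem : d ∈ L.K d.2 F := ⟨hd, rfl, hk⟩
    have h1 := hno d.2
    have h2 : (L.K d.2 F).ncard = 0 := by omega
    rw [Set.ncard_eq_zero (Set.toFinite _)] at h2
    rw [h2] at hmem
    exact hmem
  have hle : L.δ 1 ≤ L.δ F := by
    intro d e hde
    have hdS := (L.sup _ _ _ hde).1
    have heS := (L.sup _ _ _ hde).2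
    have h1F : L.δ 1 * L.δ F = L.δ F := by rw [← L.δ_mul, one_mul]
    have hF1 : L.δ F * L.δ 1 = L.δ F := by rw [← L.δ_mul, mul_one]
    cases hd : d.2 with
    | true =>
      rw [← h1F]
      cases he : e.2 with
      | true =>
        exact mul_of_chain (Or.inl ⟨hd, he, hde⟩) Relation.ReflTransGen.refl
          (Or.inl ⟨he, he, hall e heS⟩)
      | false => exact mul_of_noCross (Or.inl ⟨hd, he, hde⟩)
    | false =>
      rw [← hF1]
      cases he : e.2 with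
      | false =>
        exact mul_of_chain (Or.inr ⟨hd, he, hde⟩) Relation.ReflTransGen.refl
          (Or.inr ⟨he, he, hall e heS⟩)
      | true => exact mul_of_noCross (Or.inr ⟨hd, he, hde⟩)
  have h1 := L.sep 1 F hle x y ((hF x y).2 (Or.inr ⟨rfl, rfl⟩))
  exact hxy ((hA.one _ _).1 h1).1

/-- The induction step. -/
theorem kappa_step [Finite Q] [Finite H] (k : ℕ)
    (IH : ∀ (L : Level Q H) (C : Set H), Arena L C → 68 * k + 2 ≤ C.ncard → ∀ (F : L.T) (x y : H),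
      x ∈ C → y ∈ C → x ≠ y → (∀ a c, L.ψ F a c ↔ (a = c ∧ a ∈ C) ∨ (a = x ∧ c = y)) →
      ∃ b, 2 ^ k ≤ (L.K b F).ncard)
    (L : Level Q H) (C : Set H) (hA : Arena L C) (hC : 68 * (k + 1) + 2 ≤ C.ncard) (F : L.T)
    (x y : H) (hx : x ∈ C) (hy : y ∈ C) (hxy : x ≠ y)
    (hF : ∀ a c, L.ψ F a c ↔ (a = c ∧ a ∈ C) ∨ (a = x ∧ c = y)) :
    ∃ b, 2 ^ (k + 1) ≤ (L.K b F).ncard := by
  classical
  -- the hubs
  have hfin : ∀ A : Set H, A.Finite := fun A => Set.toFinite A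
  set C₁ : Set H := C \ {x, y} with hC₁
  have hC₁card : 68 * (k + 1) ≤ C₁.ncard := by
    have h1 : C.ncard ≤ C₁.ncard + ({x, y} : Set H).ncard := by
      have : C ⊆ C₁ ∪ {x, y} := by
        intro u hu
        by_cases h : u ∈ ({x, y} : Set H)
        · exact Or.inr h
        · exact Or.inl ⟨hu, h⟩
      exact (Set.ncard_le_ncard this (hfin _)).trans (Set.ncard_union_le _ _)
    have h2 : ({x, y} : Set H).ncard = 2 := Set.ncard_pair hxy
    omega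
  obtain ⟨S0, hS0sub, hS0card⟩ : ∃ S0 : Finset H, (S0 : Set H) ⊆ C₁ ∧ S0.card = 33 := by
    obtain ⟨t, ht, htc⟩ := Set.exists_subset_card_eq (s := C₁) (n := 33) (by omega)
    refine ⟨(hfin t).toFinset, by simpa using ht, ?_⟩
    rw [← htc, Set.ncard_eq_toFinset_card _ (hfin t)]
  have hrest : (C₁ \ (S0 : Set H)).ncard + 33 = C₁.ncard := by
    have := Set.ncard_sdiff_add_ncard_of_subset hS0sub (hfin _)
    rwa [Set.ncard_coe_finset, hS0card] at this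
  obtain ⟨T0, hT0sub, hT0card⟩ : ∃ T0 : Finset H, (T0 : Set H) ⊆ C₁ \ (S0 : Set H) ∧ T0.card = 33 := by
    obtain ⟨t, ht, htc⟩ := Set.exists_subset_card_eq (s := C₁ \ (S0 : Set H)) (n := 33) (by omega)
    refine ⟨(hfin t).toFinset, by simpa using ht, ?_⟩
    rw [← htc, Set.ncard_eq_toFinset_card _ (hfin t)]
  set S₀ : Set H := (S0 : Set H) with hS₀
  set T₀ : Set H := (T0 : Set H) with hT₀
  set C₂ : Set H := (C₁ \ S₀) \ T₀ with hC₂
  have hC₂card : 68 * k + 2 ≤ C₂.ncard := by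
    have h6 : C₂.ncard + T₀.ncard = (C₁ \ S₀).ncard := Set.ncard_sdiff_add_ncard_of_subset hT0sub (hfin _)
    have h5 : T₀.ncard = 33 := by rw [hT₀, Set.ncard_coe_finset, hT0card]
    omega
  have hparts : Parts S₀ T₀ C₂ :=
    ⟨fun u h1 h2 => (hT0sub h2).2 h1, fun u h1 h2 => h2.1.2 h1, fun u h1 h2 => h2.2 h1⟩
  have hmemC₁ : ∀ u, u ∈ C₁ ↔ (u ∈ S₀ ∨ u ∈ T₀ ∨ u ∈ C₂) := by
    intro u
    constructor
    · intro h
      by_cases h1 : u ∈ S₀
      · exact Or.inl h1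
      · by_cases h2 : u ∈ T₀
        · exact Or.inr (Or.inl h2)
        · exact Or.inr (Or.inr ⟨⟨h, h1⟩, h2⟩)
    · rintro (h | h | h)
      · exact hS0sub h
      · exact (hT0sub h).1
      · exact h.1.1
  obtain ⟨p, q, hp, hq, hpq⟩ : ∃ p q, p ∈ C₂ ∧ q ∈ C₂ ∧ p ≠ q := by
    obtain ⟨p, hp, q, hq, hpq⟩ := (Set.one_lt_ncard (hfin _)).1 (by omega : 1 < C₂.ncard)
    exact ⟨p, q, hp, hq, hpq⟩
  -- the start
  obtain ⟨E, hE, hA₁, G, hG, hNon⟩ := start_step L hA hx hy hxy F hF S0 T0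
    (fun a ha => hS0sub ha) (fun a ha => (hT0sub ha).1)
  have hrel : ∀ u v, (u = v ∧ u ∈ C₁) ↔ rel1 S₀ T₀ C₂ (fun _ _ => False) u v := by
    intro u v
    constructor
    · rintro ⟨h, h'⟩
      exact Or.inl ⟨h, (hmemC₁ u).1 h'⟩
    · rintro (⟨h, h'⟩ | h)
      · exact ⟨h, (hmemC₁ u).2 h'⟩
      · exact h.elim
  -- the chain
  have hstep : ∀ (L' : Level Q H) (P : H → H → Prop), (∀ u v, P u v → u ∈ S₀ ∧ v ∈ T₀) →
      (∀ u v, L'.ψ 1 u v ↔ rel1 S₀ T₀ C₂ P u v) → ∀ s t, s ∈ S₀ → t ∈ T₀ → ¬ P s t →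
      ∀ y' : L'.T, (∀ u v, L'.ψ y' u v ↔ rel1 S₀ T₀ C₂ P u v ∨ (u = s ∧ v = t)) →
      2 ^ k ≤ (L'.K true y').ncard + (L'.K false y').ncard := by
    intro L' P hP h1 s t hs ht hst y' hy'
    refine chain_step hparts hP L' h1 hs ht hst hy' ?_ hp hq hpq
    intro L'' hA'' p' q' F' hp' hq' hpq' hF'
    exact IH L'' C₂ hA'' hC₂card F' p' q' hp' hq' hpq' hF'
  let arcs : List (H × H) := (S0 ×ˢ T0).toList
  have hlen : arcs.length = 1089 := by
    simp [arcs, Finset.card_product, hS0card, hT0card]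
  have hch := chain_bound hparts (2 ^ k) hstep arcs (L.corner hE) (fun _ _ => False)
    (fun _ _ h => h.elim)
    (fun u v => (hA₁.one u v).trans (hrel u v))
    (fun a => G a.1 a.2) (Finset.nodup_toList _)
    (by
      intro a ha
      have h1 : a ∈ S0 ×ˢ T0 := by simpa [arcs] using ha
      obtain ⟨h2, h3⟩ := Finset.mem_product.1 h1
      exact ⟨h2, h3, fun h => h⟩)
    (by
      intro a ha u v
      have h1 : a ∈ S0 ×ˢ T0 := by simpa [arcs] using ha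
      obtain ⟨h2, h3⟩ := Finset.mem_product.1 h1
      rw [hG _ h2 _ h3 u v, hrel u v])
  rw [hlen] at hch
  -- the count
  have hsubNon : ∀ b, ((L.corner hE).Non b ((fun a : H × H => G a.1 a.2) '' {a | a ∈ arcs})).ncard ≤
      (1 + S0.card + T0.card) * ((L.K true F).ncard + (L.K false F).ncard) := by
    intro b
    refine le_trans (Set.ncard_le_ncard ?_ (Set.toFinite _)) (hNon b)
    rintro d ⟨h1, h2, _, ⟨a, ha, rfl⟩, h3⟩
    have h4 : a ∈ S0 ×ˢ T0 := by simpa [arcs] using ha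
    obtain ⟨h5, h6⟩ := Finset.mem_product.1 h4
    exact ⟨h1, h2, a.1, h5, a.2, h6, h3⟩
  have h1 := hsubNon true
  have h2 := hsubNon false
  rw [hS0card, hT0card] at h1 h2
  by_contra hno
  push Not at hno
  have h3 := hno true
  have h4 := hno false
  rw [pow_succ] at h3 h4
  omega

/-- The bound for all `k`. -/
theorem kappa_all [Finite Q] [Finite H] (k : ℕ) : ∀ (L : Level Q H) (C : Set H), Arena L C →
    68 * k + 2 ≤ C.ncard → ∀ (F : L.T) (x y : H), x ∈ C → y ∈ C → x ≠ y →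
    (∀ a c, L.ψ F a c ↔ (a = c ∧ a ∈ C) ∨ (a = x ∧ c = y)) → ∃ b, 2 ^ k ≤ (L.K b F).ncard := by
  induction k with
  | zero =>
    intro L C hA _ F x y _ _ hxy hF
    simpa using kappa_base hA hF hxy
  | succ k ih =>
    intro L C hA hC F x y hx hy hxy hF
    exact kappa_step k ih L C hA hC F x y hx hy hxy hF

end Crest.Agent.NF
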