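import Crest.Agent.Lib.TwoWayBeh.Star

/-!
# Splitting an idempotent behaviour (step (1) of the 2NFA proof, finding #2142)

For a star-idempotent `Y : Beh Q` we define the even cup paths `Pi`, the relation `Xi`, a set `Rp`
of representatives of its regular classes and two behaviours `A = cornerA Y`, `B = cornerB Y` with
`A * B = Y`. Conjugation `X ↦ B * X * A` then is multiplicative on the corner of `Y`, and
`X = A * (B * X * A) * B`.
-/

set_option autoImplicit false

namespace Crest.Agent.Lib.NF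

open Crest.Agent.Lib.TwoWayBeh

universe u

variable {Q : Type u}

/-- Elementary hops through a cut: the two-sided `mul` rules. -/
lemma mul_rel_tt {A B : Beh Q} {d z e : Dart Q} (hd : d.2 = true) (h1 : A.rel d z) (hz : z.2 = true)
    (h2 : B.rel z e) (he : e.2 = true) : (A * B).rel d e := by
  change Walk A.rel B.rel (!d.2) d e
  rw [hd]
  exact Walk.toB h1 hz (Walk.exitB h2 he)

lemma mul_rel_ff {A B : Beh Q} {d z e : Dart Q} (hd : d.2 = false) (h1 : B.rel d z)
    (hz : z.2 = false) (h2 : A.rel z e) (he : e.2 = false) : (A * B).rel d e := by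
  change Walk A.rel B.rel (!d.2) d e
  rw [hd]
  exact Walk.toA h1 hz (Walk.exitA h2 he)

lemma mul_rel_left_cup {A B : Beh Q} {d e : Dart Q} (hd : d.2 = true) (h1 : A.rel d e)
    (he : e.2 = false) : (A * B).rel d e := by
  change Walk A.rel B.rel (!d.2) d e
  rw [hd]
  exact Walk.exitA h1 he

lemma mul_rel_right_cup {A B : Beh Q} {d e : Dart Q} (hd : d.2 = false) (h1 : B.rel d e)
    (he : e.2 = true) : (A * B).rel d e := by
  change Walk A.rel B.rel (!d.2) d e
  rw [hd]
  exact Walk.exitB h1 he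

/-- Two consecutive cups of `Y` at the cut `Y | Y`. -/
def CupPair (Y : Beh Q) (d g : Dart Q) : Prop :=
  ∃ c, Y.rel d c ∧ c.2 = !d.2 ∧ Y.rel c g ∧ g.2 = d.2

/-- Even cup paths of `Y`. -/
def Pi (Y : Beh Q) : Dart Q → Dart Q → Prop := Relation.ReflTransGen (CupPair Y)

/-- `Xi Y d e`: from the crossing `d` of the cut `Y | Y`, the token can leave by `e` on the far side. -/
def Xi (Y : Beh Q) (d e : Dart Q) : Prop := e.2 = d.2 ∧ ∃ g, Pi Y d g ∧ Y.rel g e

lemma Pi.dir {Y : Beh Q} {d g : Dart Q} (h : Pi Y d g) : g.2 = d.2 := by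
  induction h with
  | refl => rfl
  | tail _ h2 ih =>
    obtain ⟨c, _, _, _, h3⟩ := h2
    rw [h3, ih]

/-- From an even cup path to a walk at the cut. -/
lemma walk_of_pi {Y : Beh Q} {e g' f : Dart Q} (h : Pi Y e g') (hf : Y.rel g' f)
    (hd : f.2 = g'.2) : Walk Y.rel Y.rel e.2 e f := by
  induction h using Relation.ReflTransGen.head_induction_on with
  | refl =>
    cases h0 : g'.2 with
    | true => exact Walk.exitB hf (by rw [hd, h0])
    | false => exact Walk.exitA hf (by rw [hd, h0])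
  | @head a c h1 _ ih =>
    obtain ⟨w, h2, h3, h4, h5⟩ := h1
    cases h0 : a.2 with
    | true =>
      have h6 : w.2 = false := by rw [h3, h0]; rfl
      have h7 : c.2 = true := by rw [h5, h0]
      rw [h7] at ih
      exact Walk.toA h2 h6 (Walk.toB h4 h7 ih)
    | false =>
      have h6 : w.2 = true := by rw [h3, h0]; rfl
      have h7 : c.2 = false := by rw [h5, h0]
      rw [h7] at ih
      exact Walk.toB h2 h6 (Walk.toA h4 h7 ih)

/-- From a walk started at a crossing to an even cup path. -/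
lemma xi_of_walk {Y : Beh Q} {i : Bool} {z e : Dart Q} (h : Walk Y.rel Y.rel i z e) :
    i = z.2 → (e.2 = i → ∃ g, Pi Y z g ∧ Y.rel g e) ∧
      (e.2 = !i → ∃ g1, Y.rel z g1 ∧ g1.2 = !i ∧ ∃ g, Pi Y g1 g ∧ Y.rel g e) := by
  induction h with
  | @exitA d e h1 h2 =>
    intro _
    exact ⟨fun _ => ⟨d, Relation.ReflTransGen.refl, h1⟩, fun h => by simp [h2] at h⟩
  | @exitB d e h1 h2 =>
    intro _
    exact ⟨fun _ => ⟨d, Relation.ReflTransGen.refl, h1⟩, fun h => by simp [h2] at h⟩
  | @toB d e o h1 h2 _ ih =>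
    intro hi
    obtain ⟨ih1, ih2⟩ := ih h2.symm
    refine ⟨fun ho => ?_, fun ho => ⟨e, h1, by simpa using h2, ih1 (by simpa using ho)⟩⟩
    obtain ⟨g1, h3, h4, g, h5, h6⟩ := ih2 (by simpa using ho)
    refine ⟨g, Relation.ReflTransGen.head ⟨e, h1, ?_, h3, ?_⟩ h5, h6⟩
    · rw [h2, ← hi]; rfl
    · rw [h4, ← hi]; rfl
  | @toA d e o h1 h2 _ ih =>
    intro hi
    obtain ⟨ih1, ih2⟩ := ih h2.symm
    refine ⟨fun ho => ?_, fun ho => ⟨e, h1, by simpa using h2, ih1 (by simpa using ho)⟩⟩
    obtain ⟨g1, h3, h4, g, h5, h6⟩ := ih2 (by simpa using ho)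
    refine ⟨g, Relation.ReflTransGen.head ⟨e, h1, ?_, h3, ?_⟩ h5, h6⟩
    · rw [h2, ← hi]; rfl
    · rw [h4, ← hi]; rfl

section idem

variable {Y : Beh Q}

/-- A through arc of `Y` has a first crossing at the cut `Y | Y`. -/
lemma through_split (hY : Y * Y = Y) {d e : Dart Q} (h : Y.rel d e) (he : e.2 = d.2) :
    ∃ z, Y.rel d z ∧ z.2 = d.2 ∧ Xi Y z e := by
  rw [← hY] at h
  change Walk Y.rel Y.rel (!d.2) d e at h
  cases hd : d.2 with
  | true =>
    rw [hd] at h he
    cases h with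
    | exitA _ h2 => simp [he] at h2
    | @toB _ z _ h1 h2 h3 =>
      obtain ⟨ih1, _⟩ := xi_of_walk h3 h2.symm
      refine ⟨z, h1, h2, by rw [he, h2], ih1 he⟩
  | false =>
    rw [hd] at h he
    cases h with
    | exitB _ h2 => simp [he] at h2
    | @toA _ z _ h1 h2 h3 =>
      obtain ⟨ih1, _⟩ := xi_of_walk h3 h2.symm
      refine ⟨z, h1, h2, by rw [he, h2], ih1 he⟩

lemma through_join (hY : Y * Y = Y) {d z e : Dart Q} (h1 : Y.rel d z) (hz : z.2 = d.2)
    (h2 : Xi Y z e) : Y.rel d e := by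
  obtain ⟨he, g, h3, h4⟩ := h2
  have h5 := walk_of_pi h3 h4 (by rw [he, h3.dir])
  rw [← hY]
  change Walk Y.rel Y.rel (!d.2) d e
  cases hd : d.2 with
  | true =>
    have hz' : z.2 = true := by rw [hz, hd]
    rw [hz'] at h5
    exact Walk.toB h1 hz' h5
  | false =>
    have hz' : z.2 = false := by rw [hz, hd]
    rw [hz'] at h5
    exact Walk.toA h1 hz' h5

lemma xi_trans (hY : Y * Y = Y) {d e f : Dart Q} (h1 : Xi Y d e) (h2 : Xi Y e f) : Xi Y d f := by
  obtain ⟨he, g, h3, h4⟩ := h1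
  refine ⟨by rw [h2.1, he], g, h3, through_join hY h4 (by rw [he, h3.dir]) h2⟩

lemma xi_dense (hY : Y * Y = Y) {z e : Dart Q} (h : Xi Y z e) : ∃ w, Xi Y z w ∧ Xi Y w e := by
  obtain ⟨he, g, h3, h4⟩ := h
  obtain ⟨w, h5, h6, h7⟩ := through_split hY h4 (by rw [he, h3.dir])
  exact ⟨w, ⟨by rw [h6, h3.dir], g, h3, h5⟩, h7⟩

/-- A transitive relation on a finite set in which everybody has a successor has a loop. -/
lemma exists_loop_of_succ {α : Type*} [Finite α] {R : α → α → Prop}
    (htr : ∀ a b c, R a b → R b c → R a c) {A : Set α} (hne : A.Nonempty)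
    (hs : ∀ a ∈ A, ∃ b ∈ A, R a b) : ∃ a ∈ A, R a a := by
  classical
  obtain ⟨a0, ha0⟩ := hne
  choose! f hf1 hf2 using hs
  have hit : ∀ n : ℕ, f^[n] a0 ∈ A := by
    intro n
    induction n with
    | zero => exact ha0
    | succ n ih =>
      rw [Function.iterate_succ_apply']
      exact hf1 _ ih
  obtain ⟨i, j, hij, hval⟩ := Finite.exists_ne_map_eq_of_infinite (fun n : ℕ => f^[n] a0)
  have key : ∀ (i k : ℕ), R (f^[i] a0) (f^[i + k + 1] a0) := by
    intro i k
    induction k with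
    | zero =>
      have := hf2 _ (hit i)
      rw [← Function.iterate_succ_apply' f i a0] at this
      exact this
    | succ k ih =>
      have := hf2 _ (hit (i + k + 1))
      rw [← Function.iterate_succ_apply' f (i + k + 1) a0] at this
      exact htr _ _ _ ih this
  rcases Nat.lt_or_gt_of_ne hij with h | h
  · refine ⟨f^[i] a0, hit i, ?_⟩
    have := key i (j - i - 1)
    have h2 : i + (j - i - 1) + 1 = j := by omega
    rw [h2] at this
    have hval' : f^[i] a0 = f^[j] a0 := hval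
    rw [← hval'] at this
    exact this
  · refine ⟨f^[j] a0, hit j, ?_⟩
    have := key j (i - j - 1)
    have h2 : j + (i - j - 1) + 1 = i := by omega
    rw [h2] at this
    have hval' : f^[i] a0 = f^[j] a0 := hval
    rw [hval'] at this
    exact this

lemma xi_reg [Finite Q] (hY : Y * Y = Y) {z e : Dart Q} (h : Xi Y z e) :
    ∃ r, Xi Y z r ∧ Xi Y r r ∧ Xi Y r e := by
  obtain ⟨w0, hw1, hw2⟩ := xi_dense hY h
  have := exists_loop_of_succ (A := {w | Xi Y z w ∧ Xi Y w e}) (R := Xi Y)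
    (fun a b c h1 h2 => xi_trans hY h1 h2) ⟨w0, hw1, hw2⟩
    (by
      rintro a ⟨h1, h2⟩
      obtain ⟨b, h3, h4⟩ := xi_dense hY h2
      exact ⟨b, ⟨xi_trans hY h1 h3, h4⟩, h3⟩)
  obtain ⟨r, ⟨h1, h2⟩, h3⟩ := this
  exact ⟨r, h1, h3, h2⟩

end idem

/-- Representatives of the regular classes of `Xi`: the minimal element in each class for a fixed
well-order of the darts. -/
def Rp (Y : Beh Q) : Set (Dart Q) :=
  {d | Xi Y d d ∧ ∀ e, Xi Y d e → Xi Y e d → ¬ WellOrderingRel e d}

lemma Rp.reg {Y : Beh Q} {d : Dart Q} (h : d ∈ Rp Y) : Xi Y d d := h.1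

lemma Rp.antisymm {Y : Beh Q} {d e : Dart Q} (hd : d ∈ Rp Y) (he : e ∈ Rp Y) (h1 : Xi Y d e)
    (h2 : Xi Y e d) : d = e := by
  have h3 := hd.2 e h1 h2
  have h4 := he.2 d h2 h1
  rcases trichotomous_of (WellOrderingRel (α := Dart Q)) d e with h | h | h
  · exact absurd h h4
  · exact h
  · exact absurd h h3

lemma Rp.exists_rep {Y : Beh Q} (hY : Y * Y = Y) {z : Dart Q} (h : Xi Y z z) :
    ∃ r ∈ Rp Y, Xi Y z r ∧ Xi Y r z := by
  have hne : ({e | Xi Y z e ∧ Xi Y e z} : Set (Dart Q)).Nonempty := ⟨z, h, h⟩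
  obtain ⟨r, ⟨h1, h2⟩, h3⟩ :=
    (IsWellFounded.wf (r := (WellOrderingRel : Dart Q → Dart Q → Prop))).has_min _ hne
  refine ⟨r, ⟨xi_trans hY h2 h1, fun e he1 he2 => h3 e ⟨xi_trans hY h1 he1, xi_trans hY he2 h2⟩⟩, h1, h2⟩

/-- The left factor of the splitting. -/
def cornerA (Y : Beh Q) : Beh Q :=
  ⟨fun d e => (d.2 = true ∧ e.2 = true ∧ Y.rel d e ∧ e ∈ Rp Y) ∨
    (d.2 = false ∧ e.2 = false ∧ d ∈ Rp Y ∧ Xi Y d e) ∨
    (d.2 = true ∧ e.2 = false ∧ Y.rel d e)⟩

/-- The right factor of the splitting. -/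
def cornerB (Y : Beh Q) : Beh Q :=
  ⟨fun d e => (d.2 = true ∧ e.2 = true ∧ d ∈ Rp Y ∧ Xi Y d e) ∨
    (d.2 = false ∧ e.2 = false ∧ Y.rel d e ∧ e ∈ Rp Y) ∨
    (d.2 = false ∧ e.2 = true ∧ Y.rel d e)⟩

section split

variable {Y : Beh Q}

theorem cornerA_mul_cornerB [Finite Q] (hY : Y * Y = Y) : cornerA Y * cornerB Y = Y := by
  apply Beh.ext
  funext d e
  apply propext
  constructor
  · intro h
    change Walk (cornerA Y).rel (cornerB Y).rel (!d.2) d e at h
    cases hd : d.2 with
    | true =>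
      rw [hd] at h
      cases h with
      | exitA h1 h2 =>
        rcases h1 with ⟨_, h3, _⟩ | ⟨h3, _⟩ | ⟨_, _, h3⟩
        · simp [h2] at h3
        · simp [hd] at h3
        · exact h3
      | @toB _ z _ h1 h2 h3 =>
        rcases h1 with ⟨_, _, h4, _⟩ | ⟨h4, _⟩ | ⟨_, h4, _⟩
        · cases h3 with
          | exitB h5 h6 =>
            rcases h5 with ⟨_, _, _, h7⟩ | ⟨h7, _⟩ | ⟨h7, _⟩
            · exact through_join hY h4 (by rw [h2, hd]) h7
            · simp [h2] at h7
            · simp [h2] at h7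
          | toA h5 h6 _ =>
            rcases h5 with ⟨_, h7, _⟩ | ⟨h7, _⟩ | ⟨h7, _⟩
            · simp [h6] at h7
            · simp [h2] at h7
            · simp [h2] at h7
        · simp [hd] at h4
        · simp [h2] at h4
    | false =>
      rw [hd] at h
      cases h with
      | exitB h1 h2 =>
        rcases h1 with ⟨h3, _⟩ | ⟨_, h3, _⟩ | ⟨_, _, h3⟩
        · simp [hd] at h3
        · simp [h2] at h3
        · exact h3
      | @toA _ z _ h1 h2 h3 =>
        rcases h1 with ⟨h4, _⟩ | ⟨_, _, h4, _⟩ | ⟨_, h4, _⟩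
        · simp [hd] at h4
        · cases h3 with
          | exitA h5 h6 =>
            rcases h5 with ⟨h7, _⟩ | ⟨_, _, _, h7⟩ | ⟨h7, _⟩
            · simp [h2] at h7
            · exact through_join hY h4 (by rw [h2, hd]) h7
            · simp [h2] at h7
          | toB h5 h6 _ =>
            rcases h5 with ⟨h7, _⟩ | ⟨_, h7, _⟩ | ⟨h7, _⟩
            · simp [h2] at h7
            · simp [h6] at h7
            · simp [h2] at h7
        · simp [h2] at h4
  · intro h
    change Walk (cornerA Y).rel (cornerB Y).rel (!d.2) d e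
    have key : e.2 = d.2 → ∃ r, r ∈ Rp Y ∧ r.2 = d.2 ∧ Y.rel d r ∧ Xi Y r e := by
      intro hed
      obtain ⟨z, h1, h2, h3⟩ := through_split hY h hed
      obtain ⟨r, h4, h5, h6⟩ := xi_reg hY h3
      obtain ⟨r', h7, h8, h9⟩ := Rp.exists_rep hY h5
      have hzr' := xi_trans hY h4 h8
      refine ⟨r', h7, by rw [hzr'.1, h2], through_join hY h1 h2 hzr', xi_trans hY h9 h6⟩
    cases hd : d.2 with
    | true =>
      cases he : e.2 with
      | true =>
        obtain ⟨r, h1, h2, h3, h4⟩ := key (by rw [he, hd])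
        have h2' : r.2 = true := by rw [h2, hd]
        exact Walk.toB (Or.inl ⟨hd, h2', h3, h1⟩) h2' (Walk.exitB (Or.inl ⟨h2', he, h1, h4⟩) he)
      | false =>
        exact Walk.exitA (Or.inr (Or.inr ⟨hd, he, h⟩)) he
    | false =>
      cases he : e.2 with
      | true =>
        exact Walk.exitB (Or.inr (Or.inr ⟨hd, he, h⟩)) he
      | false =>
        obtain ⟨r, h1, h2, h3, h4⟩ := key (by rw [he, hd])
        have h2' : r.2 = false := by rw [h2, hd]
        exact Walk.toA (Or.inr (Or.inl ⟨hd, h2', h3, h1⟩)) h2'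
          (Walk.exitA (Or.inr (Or.inl ⟨h2', he, h1, h4⟩)) he)

/-- `A` has no arcs from a left-moving dart to a right-moving dart, and `B` the mirror. -/
lemma cornerA_start {d e : Dart Q} (h : (cornerA Y).rel d e) (hd : d.2 = false) :
    e.2 = false ∧ d ∈ Rp Y ∧ Xi Y d e := by
  rcases h with ⟨h1, _⟩ | ⟨_, h1, h2, h3⟩ | ⟨h1, _⟩
  · simp [hd] at h1
  · exact ⟨h1, h2, h3⟩
  · simp [hd] at h1

lemma cornerB_start {d e : Dart Q} (h : (cornerB Y).rel d e) (hd : d.2 = true) :
    e.2 = true ∧ d ∈ Rp Y ∧ Xi Y d e := by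
  rcases h with ⟨_, h1, h2, h3⟩ | ⟨h1, _⟩ | ⟨h1, _⟩
  · exact ⟨h1, h2, h3⟩
  · simp [hd] at h1
  · simp [hd] at h1

lemma cornerA_end {d e : Dart Q} (h : (cornerA Y).rel d e) (he : e.2 = true) :
    d.2 = true ∧ e ∈ Rp Y ∧ Y.rel d e := by
  rcases h with ⟨h1, _, h2, h3⟩ | ⟨_, h1, _⟩ | ⟨_, h1, _⟩
  · exact ⟨h1, h3, h2⟩
  · simp [he] at h1
  · simp [he] at h1

lemma cornerB_end {d e : Dart Q} (h : (cornerB Y).rel d e) (he : e.2 = false) :
    d.2 = false ∧ e ∈ Rp Y ∧ Y.rel d e := by
  rcases h with ⟨_, h1, _⟩ | ⟨h1, _, h2, h3⟩ | ⟨_, h1, _⟩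
  · simp [he] at h1
  · exact ⟨h1, h3, h2⟩
  · simp [he] at h1

/-- The last step of a walk leaving on the right is an arc of the right segment. -/
lemma walk_last_right {A B : Dart Q → Dart Q → Prop} {i : Bool} {d e : Dart Q}
    (h : Walk A B i d e) (he : e.2 = true) : ∃ d', B d' e := by
  induction h with
  | exitA _ h2 => simp [he] at h2
  | exitB h1 _ => exact ⟨_, h1⟩
  | toB _ _ _ ih => exact ih he
  | toA _ _ _ ih => exact ih he

lemma walk_last_left {A B : Dart Q → Dart Q → Prop} {i : Bool} {d e : Dart Q}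
    (h : Walk A B i d e) (he : e.2 = false) : ∃ d', A d' e := by
  induction h with
  | exitA h1 _ => exact ⟨_, h1⟩
  | exitB _ h2 => simp [he] at h2
  | toB _ _ _ ih => exact ih he
  | toA _ _ _ ih => exact ih he

/-- The first step of a walk entering on the left is an arc of the left segment. -/
lemma walk_first_left {A B : Dart Q → Dart Q → Prop} {d e : Dart Q}
    (h : Walk A B false d e) : ∃ e', A d e' := by
  cases h with
  | exitA h1 _ => exact ⟨_, h1⟩
  | toB h1 _ _ => exact ⟨_, h1⟩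

lemma walk_first_right {A B : Dart Q → Dart Q → Prop} {d e : Dart Q}
    (h : Walk A B true d e) : ∃ e', B d e' := by
  cases h with
  | exitB h1 _ => exact ⟨_, h1⟩
  | toA h1 _ _ => exact ⟨_, h1⟩

/-- Ends of arcs of the conjugate `B * X * A`: both are representatives. -/
theorem corner_ends (X : Beh Q) {d e : Dart Q} (h : (cornerB Y * X * cornerA Y).rel d e) :
    d ∈ Rp Y ∧ e ∈ Rp Y := by
  have h2 : (cornerB Y * (X * cornerA Y)).rel d e := by rwa [← mul_assoc]
  constructor
  · cases hd : d.2 with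
    | true =>
      change Walk (cornerB Y * X).rel (cornerA Y).rel (!d.2) d e at h
      rw [hd] at h
      obtain ⟨e', h3⟩ := walk_first_left h
      change Walk (cornerB Y).rel X.rel (!d.2) d e' at h3
      rw [hd] at h3
      obtain ⟨e'', h4⟩ := walk_first_left h3
      exact (cornerB_start h4 hd).2.1
    | false =>
      change Walk (cornerB Y).rel (X * cornerA Y).rel (!d.2) d e at h2
      rw [hd] at h2
      obtain ⟨e', h3⟩ := walk_first_right h2
      change Walk X.rel (cornerA Y).rel (!d.2) d e' at h3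
      rw [hd] at h3
      obtain ⟨e'', h4⟩ := walk_first_right h3
      exact (cornerA_start h4 hd).2.1
  · cases he : e.2 with
    | true =>
      obtain ⟨d', h3⟩ := walk_last_right (show Walk _ _ _ d e from h) he
      exact (cornerA_end h3 he).2.1
    | false =>
      obtain ⟨d', h3⟩ := walk_last_left (show Walk _ _ _ d e from h2) he
      exact (cornerB_end h3 he).2.1

/-- `A * (B * X * A) * B = X` for `X` in the corner of `Y`. -/
theorem corner_inv [Finite Q] (hY : Y * Y = Y) {X : Beh Q} (h1 : Y * X = X) (h2 : X * Y = X) :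
    cornerA Y * (cornerB Y * X * cornerA Y) * cornerB Y = X := by
  have hab := cornerA_mul_cornerB hY
  calc cornerA Y * (cornerB Y * X * cornerA Y) * cornerB Y
      = (cornerA Y * cornerB Y) * X * (cornerA Y * cornerB Y) := by simp only [mul_assoc]
    _ = X := by rw [hab, h1, h2]

/-- `B * (X * W) * A = (B * X * A) * (B * W * A)` for `X` in the right corner of `Y`. -/
theorem corner_mul [Finite Q] (hY : Y * Y = Y) {X : Beh Q} (W : Beh Q) (h2 : X * Y = X) :
    cornerB Y * (X * W) * cornerA Y =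
      (cornerB Y * X * cornerA Y) * (cornerB Y * W * cornerA Y) := by
  have hab := cornerA_mul_cornerB hY
  calc cornerB Y * (X * W) * cornerA Y
      = cornerB Y * (X * Y) * W * cornerA Y := by rw [h2]; simp only [mul_assoc]
    _ = cornerB Y * X * (cornerA Y * cornerB Y) * W * cornerA Y := by rw [hab]; simp only [mul_assoc]
    _ = (cornerB Y * X * cornerA Y) * (cornerB Y * W * cornerA Y) := by simp only [mul_assoc]

lemma pass_T1 {X : Beh Q} (h1 : Y * X = X) {w g e : Dart Q} (hp : Pi Y w g) (hg : X.rel g e)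
    (he : e.2 = true) (hw : w.2 = true) : Walk (cornerB Y).rel X.rel true w e := by
  induction hp using Relation.ReflTransGen.head_induction_on with
  | refl => exact Walk.exitB hg he
  | @head a c h3 h4 ih =>
    obtain ⟨c', h5, h6, h7, h8⟩ := h3
    have h6' : c'.2 = false := by rw [h6, hw]; rfl
    have h8' : c.2 = true := by rw [h8, hw]
    have hX : X.rel a c' := by
      rw [← h1]
      exact mul_rel_left_cup hw h5 h6'
    exact Walk.toA hX h6' (Walk.toB (Or.inr (Or.inr ⟨h6', h8', h7⟩)) h8' (ih h8'))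

lemma pass_T2 {U : Beh Q} (hU : ∀ c g', Y.rel c g' → c.2 = false → g'.2 = true → U.rel c g')
    {w g e : Dart Q} (hp : Pi Y w g) (hg : Y.rel g e) (hr : e ∈ Rp Y)
    (he : e.2 = true) (hw : w.2 = true) : Walk U.rel (cornerA Y).rel true w e := by
  induction hp using Relation.ReflTransGen.head_induction_on with
  | refl => exact Walk.exitB (Or.inl ⟨hw, he, hg, hr⟩) he
  | @head a c h3 h4 ih =>
    obtain ⟨c', h5, h6, h7, h8⟩ := h3
    have h6' : c'.2 = false := by rw [h6, hw]; rfl
    have h8' : c.2 = true := by rw [h8, hw]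
    exact Walk.toA (Or.inr (Or.inr ⟨hw, h6', h5⟩)) h6' (Walk.toB (hU _ _ h7 h6' h8') h8' (ih h8'))

lemma pass_F1 {X : Beh Q} (h2 : X * Y = X) {w g e : Dart Q} (hp : Pi Y w g) (hg : X.rel g e)
    (he : e.2 = false) (hw : w.2 = false) : Walk X.rel (cornerA Y).rel false w e := by
  induction hp using Relation.ReflTransGen.head_induction_on with
  | refl => exact Walk.exitA hg he
  | @head a c h3 h4 ih =>
    obtain ⟨c', h5, h6, h7, h8⟩ := h3
    have h6' : c'.2 = true := by rw [h6, hw]; rfl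
    have h8' : c.2 = false := by rw [h8, hw]
    have hX : X.rel a c' := by
      rw [← h2]
      exact mul_rel_right_cup hw h5 h6'
    exact Walk.toB hX h6' (Walk.toA (Or.inr (Or.inr ⟨h6', h8', h7⟩)) h8' (ih h8'))

lemma pass_F2 {U : Beh Q} (hU : ∀ c g', Y.rel c g' → c.2 = true → g'.2 = false → U.rel c g')
    {w g e : Dart Q} (hp : Pi Y w g) (hg : Y.rel g e) (hr : e ∈ Rp Y)
    (he : e.2 = false) (hw : w.2 = false) : Walk (cornerB Y).rel U.rel false w e := by
  induction hp using Relation.ReflTransGen.head_induction_on with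
  | refl => exact Walk.exitA (Or.inr (Or.inl ⟨hw, he, hg, hr⟩)) he
  | @head a c h3 h4 ih =>
    obtain ⟨c', h5, h6, h7, h8⟩ := h3
    have h6' : c'.2 = true := by rw [h6, hw]; rfl
    have h8' : c.2 = false := by rw [h8, hw]
    exact Walk.toB (Or.inr (Or.inr ⟨hw, h6', h5⟩)) h6' (Walk.toA (hU _ _ h7 h6' h8') h8' (ih h8'))

/-- **The through part of a conjugate.** For `X` in the corner of `Y` and darts of one direction,
`B * X * A` relates `d` to `e` iff both are representatives and `X` relates the end of an even cup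
path from `d` to `e`. -/
theorem corner_through [Finite Q] (hY : Y * Y = Y) {X : Beh Q} (h1 : Y * X = X) (h2 : X * Y = X)
    {d e : Dart Q} (hde : e.2 = d.2) :
    (cornerB Y * X * cornerA Y).rel d e ↔ d ∈ Rp Y ∧ e ∈ Rp Y ∧ ∃ g, Pi Y d g ∧ X.rel g e := by
  constructor
  · intro h
    obtain ⟨hd, he⟩ := corner_ends X h
    refine ⟨hd, he, ?_⟩
    obtain ⟨_, g, h3, h4⟩ := hd.1
    refine ⟨g, h3, ?_⟩
    rw [← corner_inv hY h1 h2]
    cases hd2 : d.2 with
    | true =>
      have he2 : e.2 = true := by rw [hde, hd2]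
      have hg2 : g.2 = true := by rw [h3.dir, hd2]
      refine mul_rel_tt (z := e) hg2 ?_ he2 (Or.inl ⟨he2, he2, he, he.1⟩) he2
      exact mul_rel_tt (z := d) hg2 (Or.inl ⟨hg2, hd2, h4, hd⟩) hd2 h he2
    | false =>
      have he2 : e.2 = false := by rw [hde, hd2]
      have hg2 : g.2 = false := by rw [h3.dir, hd2]
      refine mul_rel_ff (z := d) hg2 (Or.inr (Or.inl ⟨hg2, hd2, h4, hd⟩)) hd2 ?_ he2
      exact mul_rel_ff (z := e) hd2 h he2 (Or.inr (Or.inl ⟨he2, he2, he, he.1⟩)) he2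
  · rintro ⟨hd, he, g, h3, h4⟩
    obtain ⟨_, g2, h5, h6⟩ := he.1
    cases hd2 : d.2 with
    | true =>
      have he2 : e.2 = true := by rw [hde, hd2]
      have h7 : (cornerB Y * X).rel d e := by
        change Walk (cornerB Y).rel X.rel (!d.2) d e
        rw [hd2]
        exact Walk.toB (Or.inl ⟨hd2, hd2, hd, hd.1⟩) hd2 (pass_T1 h1 h3 h4 he2 hd2)
      change Walk (cornerB Y * X).rel (cornerA Y).rel (!d.2) d e
      rw [hd2]
      refine Walk.toB h7 he2 (pass_T2 ?_ h5 h6 he he2 he2)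
      intro c g' h8 h9 h10
      have : X.rel c g' := by
        rw [← h2]
        exact mul_rel_right_cup h9 h8 h10
      exact mul_rel_right_cup h9 this h10
    | false =>
      have he2 : e.2 = false := by rw [hde, hd2]
      have h7 : (X * cornerA Y).rel d e := by
        change Walk X.rel (cornerA Y).rel (!d.2) d e
        rw [hd2]
        exact Walk.toA (Or.inr (Or.inl ⟨hd2, hd2, hd, hd.1⟩)) hd2 (pass_F1 h2 h3 h4 he2 hd2)
      rw [mul_assoc]
      change Walk (cornerB Y).rel (X * cornerA Y).rel (!d.2) d e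
      rw [hd2]
      refine Walk.toA h7 he2 (pass_F2 ?_ h5 h6 he he2 he2)
      intro c g' h8 h9 h10
      have : X.rel c g' := by
        rw [← h1]
        exact mul_rel_left_cup h9 h8 h10
      exact mul_rel_left_cup h9 this h10

/-- A representative is reflexive for the conjugate of `Y`. -/
theorem corner_refl [Finite Q] (hY : Y * Y = Y) {d : Dart Q} (hd : d ∈ Rp Y) :
    (cornerB Y * Y * cornerA Y).rel d d := by
  rw [corner_through hY hY hY rfl]
  obtain ⟨_, g, h1, h2⟩ := hd.1
  exact ⟨hd, hd, g, h1, h2⟩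

/-- The through part of the conjugate of `Y` is antisymmetric. -/
theorem corner_antisymm [Finite Q] (hY : Y * Y = Y) {d e : Dart Q} (hde : e.2 = d.2)
    (h1 : (cornerB Y * Y * cornerA Y).rel d e) (h2 : (cornerB Y * Y * cornerA Y).rel e d) :
    d = e := by
  obtain ⟨hd, he, g, h3, h4⟩ := (corner_through hY hY hY hde).1 h1
  obtain ⟨_, _, g', h5, h6⟩ := (corner_through hY hY hY hde.symm).1 h2
  exact Rp.antisymm hd he ⟨hde, g, h3, h4⟩ ⟨hde.symm, g', h5, h6⟩

end split

end Crest.Agent.Lib.NF
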