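import Mathlib

/-!
# Pure counting lemmas of the NFA bound

Finset counting for the potential lemma (disjoint lists) and the unit pigeonhole, and the
arithmetic of the recursion.
-/

set_option autoImplicit false

namespace Crest.Agent.Lib.NF

open Finset

section lists

variable {D E : Type*} [DecidableEq D]

/-- Potential counting: disjoint nonempty lists inside `Non`, indexed by `Non'`; `K ⊆ Non`; a list
of size one avoids `K`. Then `2|Non'| + |K| ≤ 2|Non|`. -/
theorem potential_count (Non K : Finset D) (Non' : Finset E) (A : E → Finset D)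
    (hne : ∀ e ∈ Non', (A e).Nonempty) (hsub : ∀ e ∈ Non', A e ⊆ Non)
    (hdisj : ∀ e ∈ Non', ∀ e' ∈ Non', e ≠ e' → Disjoint (A e) (A e'))
    (hK : K ⊆ Non)
    (hsing : ∀ e ∈ Non', (A e).card = 1 → Disjoint (A e) K) :
    2 * Non'.card + K.card ≤ 2 * Non.card := by
  classical
  set U := Non'.biUnion A with hU
  have hUsub : U ⊆ Non := by
    intro z hz
    obtain ⟨e, he, hz⟩ := Finset.mem_biUnion.1 hz
    exact hsub e he hz
  have hcardU : U.card = ∑ e ∈ Non', (A e).card := by
    apply Finset.card_biUnion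
    intro e he e' he' hne'
    exact hdisj e he e' he' hne'
  have hcardKU : (K ∩ U).card = ∑ e ∈ Non', (K ∩ A e).card := by
    have : K ∩ U = Non'.biUnion (fun e => K ∩ A e) := by
      ext z
      simp only [hU, Finset.mem_inter, Finset.mem_biUnion]
      constructor
      · rintro ⟨h1, e, he, h2⟩
        exact ⟨e, he, h1, h2⟩
      · rintro ⟨e, he, h1, h2⟩
        exact ⟨h1, e, he, h2⟩
    rw [this]
    apply Finset.card_biUnion
    intro e he e' he' hne'
    exact (hdisj e he e' he' hne').mono Finset.inter_subset_right Finset.inter_subset_right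
  have hstep : ∀ e ∈ Non', 2 + (K ∩ A e).card ≤ 2 * (A e).card := by
    intro e he
    have h1 : 1 ≤ (A e).card := Finset.card_pos.2 (hne e he)
    by_cases h2 : (A e).card = 1
    · have : K ∩ A e = ∅ := by
        have := (hsing e he h2)
        rw [Finset.inter_comm]
        exact Finset.disjoint_iff_inter_eq_empty.1 this
      rw [this]
      simp [h2]
    · have h3 : (K ∩ A e).card ≤ (A e).card := Finset.card_le_card Finset.inter_subset_right
      omega
  have hsum : 2 * Non'.card + (K ∩ U).card ≤ 2 * U.card := by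
    rw [hcardU, hcardKU, Finset.mul_sum, Finset.card_eq_sum_ones, Finset.mul_sum,
      ← Finset.sum_add_distrib]
    apply Finset.sum_le_sum
    intro e he
    simpa using hstep e he
  have h1 : K.card = (K ∩ U).card + (K \ U).card := by
    rw [Finset.card_inter_add_card_sdiff]
  have h2 : (K \ U).card ≤ (Non \ U).card := Finset.card_le_card (Finset.sdiff_subset_sdiff hK le_rfl)
  have h3 : Non.card = U.card + (Non \ U).card := by
    rw [Finset.card_sdiff_of_subset hUsub]
    have := Finset.card_le_card hUsub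
    omega
  omega

/-- Disjoint lists each meeting `U`: at most `|U|` lists. -/
theorem card_le_of_disjoint_meet (N : Finset E) (U : Finset D) (A : E → Set D)
    (hmeet : ∀ e ∈ N, ∃ z ∈ U, z ∈ A e)
    (hdisj : ∀ e ∈ N, ∀ e' ∈ N, e ≠ e' → ∀ z, z ∈ A e → z ∈ A e' → False) :
    N.card ≤ U.card := by
  classical
  rcases N.eq_empty_or_nonempty with rfl | ⟨e0, he0⟩
  · simp
  obtain ⟨z0, _, _⟩ := hmeet e0 he0
  haveI : Nonempty D := ⟨z0⟩
  choose! f hf1 hf2 using hmeet
  apply Finset.card_le_card_of_injOn f
  · intro e he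
    exact hf1 e he
  · intro e he e' he' hee
    by_contra hne
    exact hdisj e he e' he' hne (f e) (hf2 e he) (by rw [hee]; exact hf2 e' he')

/-- Pigeonhole: pairwise disjoint nonempty subsets of `S` indexed by `S` are singletons. -/
theorem singleton_of_disjoint (S : Finset D) (A : D → Finset D)
    (hne : ∀ d ∈ S, (A d).Nonempty) (hsub : ∀ d ∈ S, A d ⊆ S)
    (hdisj : ∀ d ∈ S, ∀ d' ∈ S, d ≠ d' → Disjoint (A d) (A d')) :
    ∀ d ∈ S, (A d).card = 1 := by
  classical
  have h1 : (S.biUnion A).card = ∑ d ∈ S, (A d).card := by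
    apply Finset.card_biUnion
    intro e he e' he' h
    exact hdisj e he e' he' h
  have h2 : S.biUnion A ⊆ S := by
    intro z hz
    obtain ⟨e, he, hz⟩ := Finset.mem_biUnion.1 hz
    exact hsub e he hz
  have h3 := Finset.card_le_card h2
  rw [h1] at h3
  intro d hd
  have h4 : ∑ e ∈ S, 1 ≤ ∑ e ∈ S, (A e).card := by
    apply Finset.sum_le_sum
    intro e he
    exact Finset.card_pos.2 (hne e he)
  have h5 : ∑ e ∈ S, ((A e).card - 1) = 0 := by
    have := Finset.sum_tsub_distrib (s := S) (f := fun e => (A e).card) (g := fun _ => 1)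
      (fun e he => Finset.card_pos.2 (hne e he))
    rw [this]
    simp only [Finset.sum_const, smul_eq_mul, mul_one] at h3 h4 ⊢
    omega
  have h6 := (Finset.sum_eq_zero_iff.1 h5) d hd
  have h7 := Finset.card_pos.2 (hne d hd)
  omega

end lists

section arith

/-- The recursion. -/
theorem two_pow_le_of_rec (e : ℕ → ℕ) (h1 : ∀ n, 1 ≤ e n)
    (h2 : ∀ n, 70 ≤ n → 1089 * e (n - 68) ≤ 536 * e n) :
    ∀ n, 2 ^ ((n - 2) / 68) ≤ e n := by
  intro n
  induction n using Nat.strong_induction_on with
  | _ n ih =>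
    by_cases hn : n < 70
    · have : (n - 2) / 68 = 0 := by omega
      rw [this]
      simpa using h1 n
    · have hn' : 70 ≤ n := by omega
      have h3 := h2 n hn'
      have h4 := ih (n - 68) (by omega)
      have h5 : (n - 2) / 68 = (n - 68 - 2) / 68 + 1 := by omega
      rw [h5, pow_succ]
      have h6 : 2 * e (n - 68) ≤ e n := by omega
      calc 2 ^ ((n - 68 - 2) / 68) * 2 ≤ e (n - 68) * 2 := Nat.mul_le_mul_right _ h4
        _ = 2 * e (n - 68) := by ring
        _ ≤ e n := h6

/-- From `2^((n-2)/68) ≤ L` (with `n = N-2` hubs) to the target exponent. -/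
theorem target_of_pow (N L : ℕ) (h : 2 ^ ((N - 2 - 2) / 68) ≤ L) :
    2 ^ ((N - 4) / 127) ≤ 2 * L := by
  have h1 : (N - 4) / 127 ≤ (N - 2 - 2) / 68 := by
    have : N - 2 - 2 = N - 4 := by omega
    rw [this]
    exact Nat.div_le_div_left (by norm_num) (by norm_num)
  calc 2 ^ ((N - 4) / 127) ≤ 2 ^ ((N - 2 - 2) / 68) := Nat.pow_le_pow_right (by norm_num) h1
    _ ≤ L := h
    _ ≤ 2 * L := by omega

end arith

end Crest.Agent.Lib.NF
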