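import Crest.Agent.Lib.TwoWayBeh.Star

/-!
# Crossing darts of a through arc of a star product (row 294, S0444; #2142 (2))

For behaviours `A B : Beh Q`, an arc of `A * B` is a walk (`Walk`) alternating between `A` and `B`.
`Pre A B i d z` says that a walker in segment `i` (`false` = `A`, `true` = `B`) with dart `d`
crosses the cut `A | B` with the dart `z` at some later moment.
`Cross A B d o z`: `z` is a crossing dart of some walk from `d` to `o`.

Main facts: `Cross.rel` (crossing + post gives an arc), `Cross.crossover`, `persist`,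
`exists_first_cross`, `exists_last_cross`, `Cross` in an idempotent.
-/

set_option autoImplicit false

namespace Crest.Agent.Lib.NF

open Crest.Agent.Lib.TwoWayBeh

universe u

variable {Q : Type u}

/-- `Pre A B i d z`: a walker in segment `i` entering with `d` reaches the crossing dart `z`. -/
inductive Pre (A B : Dart Q → Dart Q → Prop) : Bool → Dart Q → Dart Q → Prop
  | hereA {d z : Dart Q} : A d z → z.2 = true → Pre A B false d z
  | hereB {d z : Dart Q} : B d z → z.2 = false → Pre A B true d z
  | stepA {d e z : Dart Q} : A d e → e.2 = true → Pre A B true e z → Pre A B false d z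
  | stepB {d e z : Dart Q} : B d e → e.2 = false → Pre A B false e z → Pre A B true d z

/-- A walk prefix followed by a walk. -/
lemma Pre.walk {A B : Dart Q → Dart Q → Prop} {i : Bool} {d z o : Dart Q}
    (h : Pre A B i d z) (hz : Walk A B z.2 z o) : Walk A B i d o := by
  induction h with
  | @hereA d z h1 h2 => exact Walk.toB h1 h2 (by simpa [h2] using hz)
  | @hereB d z h1 h2 => exact Walk.toA h1 h2 (by simpa [h2] using hz)
  | stepA h1 h2 _ ih => exact Walk.toB h1 h2 (ih hz)
  | stepB h1 h2 _ ih => exact Walk.toA h1 h2 (ih hz)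

/-- Concatenation of prefixes. -/
lemma Pre.trans {A B : Dart Q → Dart Q → Prop} {i : Bool} {d z z' : Dart Q}
    (h : Pre A B i d z) (hz : Pre A B z.2 z z') : Pre A B i d z' := by
  induction h with
  | @hereA d z h1 h2 => exact Pre.stepA h1 h2 (by simpa [h2] using hz)
  | @hereB d z h1 h2 => exact Pre.stepB h1 h2 (by simpa [h2] using hz)
  | stepA h1 h2 _ ih => exact Pre.stepA h1 h2 (ih hz)
  | stepB h1 h2 _ ih => exact Pre.stepB h1 h2 (ih hz)

/-- `z` is a crossing dart of a walk from `d` to `o` of the star product of `A` and `B`. -/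
def Cross (A B : Beh Q) (d o z : Dart Q) : Prop :=
  Pre A.rel B.rel (!d.2) d z ∧ Walk A.rel B.rel z.2 z o

lemma Cross.rel {A B : Beh Q} {d o z : Dart Q} (h : Cross A B d o z) : (A * B).rel d o :=
  h.1.walk h.2

/-- Crossover: two arcs of a star product with a common crossing dart exchange their tails. -/
theorem Cross.crossover {A B : Beh Q} {d o d' o' z : Dart Q} (h : Cross A B d o z)
    (h' : Cross A B d' o' z) : (A * B).rel d o' :=
  h.1.walk h'.2

/-- The crossing darts of a walk, by induction. -/
lemma walk_first {A B : Dart Q → Dart Q → Prop} {i : Bool} {d o : Dart Q} (h : Walk A B i d o)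
    (ho : o.2 = i → False) :
    ∃ z, Pre A B i d z ∧ Walk A B z.2 z o ∧ z.2 = !i ∧ (if i then B d z else A d z) := by
  cases h with
  | exitA h1 h2 => exact absurd h2 (fun h => ho h)
  | exitB h1 h2 => exact absurd h2 (fun h => ho h)
  | @toB _ e _ h1 h2 h3 => exact ⟨e, Pre.hereA h1 h2, by simpa [h2] using h3, by simpa using h2, by simpa using h1⟩
  | @toA _ e _ h1 h2 h3 => exact ⟨e, Pre.hereB h1 h2, by simpa [h2] using h3, by simpa using h2, by simpa using h1⟩

/-- First crossing of a through arc (`d.2 = o.2`): it has the direction of the arc and is an arc of the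
segment which is entered. -/
theorem exists_first_cross {A B : Beh Q} {d o : Dart Q} (h : (A * B).rel d o) (hd : o.2 = d.2) :
    ∃ z, Cross A B d o z ∧ z.2 = d.2 ∧ (if d.2 then A.rel d z else B.rel d z) := by
  have h' : Walk A.rel B.rel (!d.2) d o := h
  obtain ⟨z, h1, h2, h3, h4⟩ := walk_first h' (by cases hx : d.2 <;> simp [hd, hx])
  refine ⟨z, ⟨h1, h2⟩, by simpa using h3, ?_⟩
  cases hx : d.2 <;> simpa [hx] using h4

/-- Last crossing of a walk that ends on the right. -/
lemma walk_last_true {A B : Dart Q → Dart Q → Prop} {i : Bool} {d o : Dart Q} (h : Walk A B i d o)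
    (ho : o.2 = true) :
    (i = true ∧ B d o) ∨ ∃ z, Pre A B i d z ∧ z.2 = true ∧ B z o := by
  induction h with
  | exitA h1 h2 => simp [h2] at ho
  | exitB h1 h2 => exact Or.inl ⟨rfl, h1⟩
  | @toB d e o h1 h2 _ ih =>
    rcases ih ho with ⟨_, h3⟩ | ⟨z, h3, h4, h5⟩
    · exact Or.inr ⟨e, Pre.hereA h1 h2, h2, h3⟩
    · exact Or.inr ⟨z, Pre.stepA h1 h2 h3, h4, h5⟩
  | @toA d e o h1 h2 _ ih =>
    rcases ih ho with ⟨h, _⟩ | ⟨z, h3, h4, h5⟩
    · simp at h
    · exact Or.inr ⟨z, Pre.stepB h1 h2 h3, h4, h5⟩

/-- Last crossing of a walk that ends on the left. -/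
lemma walk_last_false {A B : Dart Q → Dart Q → Prop} {i : Bool} {d o : Dart Q} (h : Walk A B i d o)
    (ho : o.2 = false) :
    (i = false ∧ A d o) ∨ ∃ z, Pre A B i d z ∧ z.2 = false ∧ A z o := by
  induction h with
  | exitA h1 h2 => exact Or.inl ⟨rfl, h1⟩
  | exitB h1 h2 => simp [h2] at ho
  | @toB d e o h1 h2 _ ih =>
    rcases ih ho with ⟨h, _⟩ | ⟨z, h3, h4, h5⟩
    · simp at h
    · exact Or.inr ⟨z, Pre.stepA h1 h2 h3, h4, h5⟩
  | @toA d e o h1 h2 _ ih =>
    rcases ih ho with ⟨_, h3⟩ | ⟨z, h3, h4, h5⟩
    · exact Or.inr ⟨e, Pre.hereB h1 h2, h2, h3⟩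
    · exact Or.inr ⟨z, Pre.stepB h1 h2 h3, h4, h5⟩

/-- Last crossing of a through arc (`d.2 = o.2`): it has the direction of the arc and the exit segment
carries an arc from it. -/
theorem exists_last_cross {A B : Beh Q} {d o : Dart Q} (h : (A * B).rel d o) (hd : o.2 = d.2) :
    ∃ z, Cross A B d o z ∧ z.2 = d.2 ∧ (if d.2 then B.rel z o else A.rel z o) := by
  have h' : Walk A.rel B.rel (!d.2) d o := h
  cases hx : d.2 with
  | true =>
    have ho : o.2 = true := by simpa [hx] using hd
    rcases walk_last_true h' ho with ⟨h1, _⟩ | ⟨z, h3, h4, h5⟩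
    · simp [hx] at h1
    · refine ⟨z, ⟨h3, ?_⟩, by simpa [hx] using h4, by simpa using h5⟩
      rw [h4]
      exact Walk.exitB h5 ho
  | false =>
    have ho : o.2 = false := by simpa [hx] using hd
    rcases walk_last_false h' ho with ⟨h1, _⟩ | ⟨z, h3, h4, h5⟩
    · simp [hx] at h1
    · refine ⟨z, ⟨h3, ?_⟩, by simpa [hx] using h4, by simpa using h5⟩
      rw [h4]
      exact Walk.exitA h5 ho

/-! ## Persistence -/

/-- `t` fixes the dart `d`. -/
def Fixes (t : Beh Q) (d : Dart Q) : Prop := t.rel d d

/-- An arc of `A` ending in a dart fixed by `t` is an arc of `A * t` (when it crosses to the right). -/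
lemma mul_rel_of_right_fix {A t : Beh Q} {d z : Dart Q} (h : A.rel d z) (hz : z.2 = true)
    (ht : t.rel z z) (hd : d.2 = true) : (A * t).rel d z := by
  change Walk A.rel t.rel (!d.2) d z
  simpa [hd] using Walk.toB h hz (Walk.exitB ht hz)

/-- Walks of `A, B` all of whose crossing darts are fixed by `t`, become walks of `A * t, B`. -/
lemma persist_aux {A B t : Beh Q} {i : Bool} {d o : Dart Q} (h : Walk A.rel B.rel i d o)
    (hfix : ∀ z, Pre A.rel B.rel i d z → Walk A.rel B.rel z.2 z o → t.rel z z)
    (hd : (i = false ∧ d.2 = false) → t.rel d d) :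
    Walk (A * t).rel B.rel i d o := by
  induction h with
  | @exitA d e h1 h2 =>
    refine Walk.exitA ?_ h2
    change Walk A.rel t.rel (!d.2) d e
    cases hx : d.2 with
    | true => simpa using Walk.exitA h1 h2
    | false => simpa using Walk.toA (hd ⟨rfl, hx⟩) hx (Walk.exitA h1 h2)
  | @exitB d e h1 h2 => exact Walk.exitB h1 h2
  | @toB d e o h1 h2 h3 ih =>
    have hfe : t.rel e e := hfix e (Pre.hereA h1 h2) (by simpa [h2] using h3)
    refine Walk.toB ?_ h2 (ih (fun z hz hz' => hfix z (Pre.stepA h1 h2 hz) hz') (by simp))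
    change Walk A.rel t.rel (!d.2) d e
    cases hx : d.2 with
    | true => simpa using Walk.toB h1 h2 (Walk.exitB hfe h2)
    | false => simpa using Walk.toA (hd ⟨rfl, hx⟩) hx (Walk.toB h1 h2 (Walk.exitB hfe h2))
  | @toA d e o h1 h2 h3 ih =>
    have hfe : t.rel e e := hfix e (Pre.hereB h1 h2) (by simpa [h2] using h3)
    exact Walk.toA h1 h2 (ih (fun z hz hz' => hfix z (Pre.stepB h1 h2 hz) hz') (fun _ => hfe))

/-- PERSIST. If all crossing darts of arcs `d → o` of `A * B` are fixed by `t` then `d → o` is an arc of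
`A * t * B`. -/
theorem persist {A B t : Beh Q} {d o : Dart Q} (h : (A * B).rel d o)
    (hfix : ∀ z, Cross A B d o z → t.rel z z) : (A * t * B).rel d o := by
  change Walk (A * t).rel B.rel (!d.2) d o
  refine persist_aux (t := t) h (fun z hz hz' => hfix z ⟨hz, hz'⟩) ?_
  rintro ⟨h1, h2⟩
  simp [h2] at h1

/-- Contrapositive form of PERSIST. -/
theorem exists_unfixed_cross {A B t : Beh Q} {d o : Dart Q} (h : (A * B).rel d o)
    (hno : ¬ (A * t * B).rel d o) : ∃ z, Cross A B d o z ∧ ¬ t.rel z z := by
  by_contra hcon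
  push Not at hcon
  exact hno (persist h hcon)

/-! ## Idempotents -/

section idem

variable {Y : Beh Q}

/-- A crossing prefix to a dart fixed by the right factor is an arc. -/
lemma Pre.rel_of_fix {A B : Beh Q} {g z : Dart Q} (h : Pre A.rel B.rel (!g.2) g z)
    (hfix : if z.2 then B.rel z z else A.rel z z) : (A * B).rel g z := by
  refine Pre.walk h ?_
  cases hz : z.2 with
  | true => exact Walk.exitB (by simpa [hz] using hfix) hz
  | false => exact Walk.exitA (by simpa [hz] using hfix) hz

/-- A crossing suffix from a dart fixed by the left factor is an arc. -/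
lemma Walk.rel_of_fix {A B : Beh Q} {z o : Dart Q} (h : Walk A.rel B.rel z.2 z o)
    (hfix : if z.2 then A.rel z z else B.rel z z) : (A * B).rel z o := by
  change Walk A.rel B.rel (!z.2) z o
  cases hz : z.2 with
  | true =>
    have h' : Walk A.rel B.rel true z o := by simpa [hz] using h
    simpa using Walk.toB (by simpa [hz] using hfix) hz h'
  | false =>
    have h' : Walk A.rel B.rel false z o := by simpa [hz] using h
    simpa using Walk.toA (by simpa [hz] using hfix) hz h'

/-- In an idempotent: a crossing prefix to a fixed dart is an arc. -/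
theorem Cross.pre_rel_of_idem (hY : Y * Y = Y) {g o z : Dart Q} (h : Cross Y Y g o z)
    (hz : Y.rel z z) : Y.rel g z := by
  have : (Y * Y).rel g z := Pre.rel_of_fix h.1 (by cases hx : z.2 <;> simpa [hx] using hz)
  rwa [hY] at this

/-- In an idempotent: a crossing suffix from a fixed dart is an arc. -/
theorem Cross.post_rel_of_idem (hY : Y * Y = Y) {g o z : Dart Q} (h : Cross Y Y g o z)
    (hz : Y.rel z z) : Y.rel z o := by
  have : (Y * Y).rel z o := Walk.rel_of_fix h.2 (by cases hx : z.2 <;> simpa [hx] using hz)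
  rwa [hY] at this

/-- A product with a middle factor fixing a dart: the through arc `g → z → z → o`, rightward. -/
theorem mul_mul_rel_true {A t B : Beh Q} {g z o : Dart Q} (h1 : A.rel g z) (h2 : t.rel z z)
    (h3 : B.rel z o) (hg : g.2 = true) (hz : z.2 = true) (ho : o.2 = true) :
    (A * t * B).rel g o := by
  change Walk (A * t).rel B.rel (!g.2) g o
  have : (A * t).rel g z := mul_rel_of_right_fix h1 hz h2 hg
  simpa [hg] using Walk.toB this hz (Walk.exitB h3 ho)

/-- A product with a middle factor fixing a dart: the through arc `g → z → z → o`, leftward. -/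
theorem mul_mul_rel_false {A t B : Beh Q} {g z o : Dart Q} (h1 : B.rel g z) (h2 : t.rel z z)
    (h3 : A.rel z o) (hg : g.2 = false) (hz : z.2 = false) (ho : o.2 = false) :
    (A * t * B).rel g o := by
  change Walk (A * t).rel B.rel (!g.2) g o
  have h4 : (A * t).rel z o := by
    change Walk A.rel t.rel (!z.2) z o
    simpa [hz] using Walk.toA h2 hz (Walk.exitA h3 ho)
  simpa [hg] using Walk.toA h1 hz (Walk.exitA h4 ho)

/-- A through arc across the cut with its two ends on one dart, in both directions. -/
theorem mul_mul_rel_of_fix {A t B : Beh Q} {g z o : Dart Q}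
    (h1 : if z.2 then A.rel g z else B.rel g z) (h2 : t.rel z z)
    (h3 : if z.2 then B.rel z o else A.rel z o) (hg : g.2 = z.2) (ho : o.2 = z.2) :
    (A * t * B).rel g o := by
  cases hz : z.2 with
  | true =>
    rw [hz] at hg ho
    simp only [hz, if_true] at h1 h3
    exact mul_mul_rel_true h1 h2 h3 hg hz ho
  | false =>
    rw [hz] at hg ho
    simp only [hz, Bool.false_eq_true, if_false] at h1 h3
    exact mul_mul_rel_false h1 h2 h3 hg hz ho

end idem

end Crest.Agent.Lib.NF
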