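import Crest.Agent.Lib.TwoWayBeh.Bridge
import Crest.Agent.Lib.TwoWayBeh.Upper

/-!
# Row 294 (S0444): the top glue

From a machine recognizing the complement of the liveness language we build the starting level of
the kill-count recursion: a finite monoid `T` (pairs of behaviour and composite relation of words),
`δ : T →* Beh Q`, `ψ : T → Rel`, the separation property and surjectivity. The statement S0444 then
follows from the abstract bound `CoreBound`.
-/

set_option autoImplicit false

namespace Crest.Agent.Lib.NF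

open Crest.TwoWay Crest.Agent.Lib.TwoWayBeh

universe u

/-- Relations on hubs, as a monoid (composition in reading order). -/
@[ext] structure HRel (H : Type) where
  /-- the relation -/
  rel : H → H → Prop

namespace HRel

variable {H : Type}

instance : One (HRel H) := ⟨⟨fun a b => a = b⟩⟩
instance : Mul (HRel H) := ⟨fun r s => ⟨fun a c => ∃ b, r.rel a b ∧ s.rel b c⟩⟩

@[simp] lemma one_rel (a b : H) : (1 : HRel H).rel a b ↔ a = b := Iff.rfl
@[simp] lemma mul_rel (r s : HRel H) (a c : H) : (r * s).rel a c ↔ ∃ b, r.rel a b ∧ s.rel b c :=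
  Iff.rfl

instance : Monoid (HRel H) where
  mul_assoc r s t := by
    ext a c
    simp only [mul_rel]
    constructor
    · rintro ⟨b, ⟨x, h1, h2⟩, h3⟩
      exact ⟨x, h1, b, h2, h3⟩
    · rintro ⟨x, h1, b, h2, h3⟩
      exact ⟨b, ⟨x, h1, h2⟩, h3⟩
  one_mul r := by
    ext a c
    simp
  mul_one r := by
    ext a c
    simp

instance [Finite H] : Finite (HRel H) :=
  Finite.of_injective (fun r : HRel H => r.rel) (fun r s h => HRel.ext h)

end HRel

/-- The starting level of the recursion. -/
structure StartLevel (Q : Type u) (H : Type) (T : Type u) [Monoid T] where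
  /-- the behaviour -/
  δ : T →* Beh Q
  /-- the composite relation -/
  ψ : T →* HRel H
  /-- the empty word has relation equality -/
  ψ_one : ψ 1 = 1
  /-- separation: more behaviour means fewer arcs -/
  sep : ∀ x w, δ x ≤ δ w → ∀ a b, (ψ w).rel a b → (ψ x).rel a b
  /-- every relation is a letter -/
  surj : ∀ ρ : HRel H, ∃ x, ψ x = ρ

/-- The abstract bound that the kill-count recursion provides. -/
def CoreBound : Prop :=
  ∀ (Q : Type u) [Finite Q] (T : Type u) [Monoid T] [Finite T] (h : ℕ)
    (_ : StartLevel Q (Fin h) T), 2 ≤ h → 2 ^ ((h - 2) / 68) ≤ Nat.card Q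

section machine

variable {h : ℕ} {σ : Type u} (B : TwoWayNFA (Fin h → Fin h → Bool) σ)

/-- The behaviour of a word, without the endmarkers. -/
def wordBeh (w : List (Fin h → Fin h → Bool)) : Beh (Option σ) :=
  (w.map (fun a => cellBeh (doneRules B) (Cell.letter a))).prod

lemma wordBeh_nil : wordBeh B [] = 1 := rfl

lemma wordBeh_append (u v : List (Fin h → Fin h → Bool)) :
    wordBeh B (u ++ v) = wordBeh B u * wordBeh B v := by
  simp [wordBeh, List.prod_append]

lemma tapeBeh_cells (w : List (Fin h → Fin h → Bool)) :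
    tapeBeh (doneRules B) (cells w) =
      cellBeh (doneRules B) Cell.leftEnd * (wordBeh B w * cellBeh (doneRules B) Cell.rightEnd) := by
  simp [tapeBeh, cells, wordBeh, List.prod_append, List.map_map, Function.comp_def]

lemma accepts_iff_word (w : List (Fin h → Fin h → Bool)) :
    B.Accepts w ↔ (cellBeh (doneRules B) Cell.leftEnd *
      (wordBeh B w * cellBeh (doneRules B) Cell.rightEnd)).rel (some B.start, true) (none, false) := by
  rw [accepts_iff, tapeBeh_cells]

lemma accepts_mono {u v : List (Fin h → Fin h → Bool)} (huv : wordBeh B u ≤ wordBeh B v)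
    (hu : B.Accepts u) : B.Accepts v := by
  rw [accepts_iff_word] at hu ⊢
  have h1 : cellBeh (doneRules B) Cell.leftEnd *
      (wordBeh B u * cellBeh (doneRules B) Cell.rightEnd) ≤
      cellBeh (doneRules B) Cell.leftEnd *
      (wordBeh B v * cellBeh (doneRules B) Cell.rightEnd) :=
    Beh.mul_le_mul' (fun _ _ h => h) (Beh.mul_le_mul' huv (fun _ _ h => h))
  exact h1 _ _ hu

lemma wordRel_nil (a b : Fin h) : wordRel ([] : List (Fin h → Fin h → Bool)) a b ↔ a = b := by
  simp [wordRel]

lemma wordRel_cons (R : Fin h → Fin h → Bool) (w : List (Fin h → Fin h → Bool)) (a c : Fin h) :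
    wordRel (R :: w) a c ↔ ∃ b, R a b = true ∧ wordRel w b c := by
  simp [wordRel]

lemma wordRel_append' (u v : List (Fin h → Fin h → Bool)) (a c : Fin h) :
    wordRel (u ++ v) a c ↔ ∃ b, wordRel u a b ∧ wordRel v b c := by
  induction u generalizing a with
  | nil =>
    simp only [List.nil_append, wordRel_nil]
    constructor
    · exact fun h => ⟨a, rfl, h⟩
    · rintro ⟨b, rfl, h⟩
      exact h
  | cons R u ih =>
    simp only [List.cons_append, wordRel_cons, ih]
    constructor
    · rintro ⟨b, h1, d, h2, h3⟩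
      exact ⟨d, ⟨b, h1, h2⟩, h3⟩
    · rintro ⟨d, ⟨b, h1, h2⟩, h3⟩
      exact ⟨b, h1, d, h2, h3⟩

/-- Two guard letters make a word alive exactly when it has the arc `a → b`. -/
lemma guard_liveness (u : List (Fin h → Fin h → Bool)) (a b : Fin h) :
    ((fun _ y => decide (y = a)) :: (u ++ [fun x _ => decide (x = b)])) ∈ liveness h ↔
      wordRel u a b := by
  constructor
  · rintro ⟨x, y, hxy⟩
    rw [wordRel_cons] at hxy
    obtain ⟨a', h1, h2⟩ := hxy
    rw [wordRel_append'] at h2
    obtain ⟨b', h3, h4⟩ := h2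
    rw [wordRel_cons] at h4
    obtain ⟨c, h5, _⟩ := h4
    have ha : a' = a := by simpa using h1
    have hb : b' = b := by simpa using h5
    subst ha
    subst hb
    exact h3
  · intro hab
    refine ⟨a, b, ?_⟩
    rw [wordRel_cons]
    refine ⟨a, by simp, ?_⟩
    rw [wordRel_append']
    refine ⟨b, hab, ?_⟩
    rw [wordRel_cons]
    exact ⟨b, by simp, (wordRel_nil _ _).2 rfl⟩

/-- Separation on words. -/
lemma word_sep (hB : B.language = (liveness h)ᶜ) {u v : List (Fin h → Fin h → Bool)}
    (huv : wordBeh B u ≤ wordBeh B v) (a b : Fin h) (hv : wordRel v a b) : wordRel u a b := by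
  by_contra hu
  set P : Fin h → Fin h → Bool := fun _ y => decide (y = a) with hP
  set S : Fin h → Fin h → Bool := fun x _ => decide (x = b) with hS
  have h1 : (P :: (u ++ [S])) ∉ liveness h := fun h' => hu ((guard_liveness u a b).1 h')
  have h2 : (P :: (v ++ [S])) ∈ liveness h := (guard_liveness v a b).2 hv
  have h3 : B.Accepts (P :: (u ++ [S])) := by
    have : (P :: (u ++ [S])) ∈ B.language := by rw [hB]; exact h1
    exact this
  have h4 : wordBeh B (P :: (u ++ [S])) ≤ wordBeh B (P :: (v ++ [S])) := by
    have e (w : List (Fin h → Fin h → Bool)) : wordBeh B (P :: (w ++ [S])) =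
        wordBeh B [P] * (wordBeh B w * wordBeh B [S]) := by
      rw [← wordBeh_append, ← wordBeh_append]
      rfl
    rw [e, e]
    exact Beh.mul_le_mul' (fun _ _ h => h) (Beh.mul_le_mul' huv (fun _ _ h => h))
  have h5 : B.Accepts (P :: (v ++ [S])) := accepts_mono B h4 h3
  have h6 : (P :: (v ++ [S])) ∉ liveness h := by
    have : (P :: (v ++ [S])) ∈ B.language := h5
    rw [hB] at this
    exact this
  exact h6 h2

/-- The pair of a word. -/
def wordPair (w : List (Fin h → Fin h → Bool)) : Beh (Option σ) × HRel (Fin h) :=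
  (wordBeh B w, ⟨wordRel w⟩)

/-- The monoid of word pairs. -/
def wordMonoid : Submonoid (Beh (Option σ) × HRel (Fin h)) where
  carrier := Set.range (wordPair B)
  one_mem' := by
    refine ⟨[], ?_⟩
    refine Prod.ext (wordBeh_nil B) ?_
    ext a c
    exact wordRel_nil a c
  mul_mem' := by
    rintro _ _ ⟨u, rfl⟩ ⟨v, rfl⟩
    refine ⟨u ++ v, Prod.ext (wordBeh_append B u v) ?_⟩
    ext a c
    exact wordRel_append' u v a c

instance [Finite σ] : Finite (wordMonoid B) := by
  exact Subtype.finite

/-- The starting level of a machine for the complement of liveness. -/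
def startLevel (hB : B.language = (liveness h)ᶜ) :
    StartLevel (Option σ) (Fin h) (wordMonoid B) where
  δ := (MonoidHom.fst _ _).comp (wordMonoid B).subtype
  ψ := (MonoidHom.snd _ _).comp (wordMonoid B).subtype
  ψ_one := rfl
  sep := by
    rintro ⟨_, u, rfl⟩ ⟨_, v, rfl⟩ huv a b hab
    exact word_sep B hB huv a b hab
  surj := by
    intro ρ
    classical
    refine ⟨⟨wordPair B [fun a b => decide (ρ.rel a b)], _, rfl⟩, ?_⟩
    ext a c
    change wordRel [fun a b => decide (ρ.rel a b)] a c ↔ ρ.rel a c
    rw [wordRel_cons]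
    constructor
    · rintro ⟨b, h1, h2⟩
      rw [wordRel_nil] at h2
      subst h2
      simpa using h1
    · intro h'
      exact ⟨c, by simpa using h', (wordRel_nil _ _).2 rfl⟩

/-- The machine bound from the core. -/
theorem machine_bound (core : CoreBound.{u}) (hh : 2 ≤ h) [Fintype σ]
    (hB : B.language = (liveness h)ᶜ) : 2 ^ ((h - 2) / 68) ≤ Fintype.card σ + 1 := by
  have := core (Option σ) (wordMonoid B) h (startLevel B hB) hh
  simpa [Nat.card_eq_fintype_card, Fintype.card_option] using this

end machine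

/-- The whole statement S0444 from the core. -/
theorem s0444_of_core (core : CoreBound.{u}) (n : ℕ) (hn : 4 ≤ n) :
    (∃ A : Crest.TwoWay.TwoWayNFA (Fin (n - 2) → Fin (n - 2) → Bool) (Fin n),
        A.language = Crest.TwoWay.liveness (n - 2)) ∧
      ∀ (σ : Type u) [Fintype σ] (B : Crest.TwoWay.TwoWayNFA (Fin (n - 2) → Fin (n - 2) → Bool) σ),
        B.language = (Crest.TwoWay.liveness (n - 2))ᶜ →
          2 ^ ((n - 4) / 127) ≤ 2 * (Fintype.card σ + 1) := by
  refine ⟨?_, ?_⟩
  · obtain ⟨A, _, hA⟩ := exists_liveness_machine (n - 2) n (by omega)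
    exact ⟨A, hA⟩
  · intro σ _ B hB
    have h1 := machine_bound B core (by omega : 2 ≤ n - 2) hB
    have h2 : n - 2 - 2 = n - 4 := by omega
    rw [h2] at h1
    have h3 : (n - 4) / 127 ≤ (n - 4) / 68 := Nat.div_le_div_left (by norm_num) (by norm_num)
    have h4 : (2 : ℕ) ^ ((n - 4) / 127) ≤ 2 ^ ((n - 4) / 68) :=
      Nat.pow_le_pow_right (by norm_num) h3
    omega

end Crest.Agent.Lib.NF
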