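import Crest.Agent.Lib.NF.Level
import Crest.Agent.Lib.NF.Top

/-!
# Row 294 (S0444): from the machine to the first level

`exists_top_level`: a machine for the complement of liveness gives a `Level` with `ψ 1 = equality`,
all darts as labels. The monoid of word pairs is transported to `Fin n` because `Level.T : Type`.
`coreBound_of_level`: the abstract bound `CoreBound` follows from a bound on such levels.
-/

set_option autoImplicit false

namespace Crest.Agent.Lib.NF

open Crest.TwoWay Crest.Agent.Lib.TwoWayBeh

universe u

/-- A copy of `Fin n` without algebraic structure. -/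
def Car (n : ℕ) : Type := Fin n

instance (n : ℕ) : Finite (Car n) := inferInstanceAs (Finite (Fin n))

/-- A starting level gives a `Level`, with all darts as labels. -/
noncomputable def StartLevel.toLevel {Q : Type u} {H : Type} {T : Type u} [Monoid T] [Finite T]
    (L : StartLevel Q H T) : Crest.Agent.NF.Level Q H :=
  let n := Nat.card T
  let e : T ≃ Car n := Finite.equivFin T
  letI mon : Monoid (Car n) := e.symm.monoid
  have hmul : ∀ x y : Car n, e.symm (x * y) = e.symm x * e.symm y := fun x y => by
    change e.symm (e (e.symm x * e.symm y)) = _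
    simp
  have hone : e.symm (1 : Car n) = 1 := by
    change e.symm (e 1) = _
    simp
  { T := Car n
    inst := mon
    fin := inferInstance
    δ := fun x => L.δ (e.symm x)
    δ_mul := fun x y => by rw [hmul, map_mul]
    S := Set.univ
    sup := fun _ _ _ _ => ⟨Set.mem_univ _, Set.mem_univ _⟩
    refl := fun d _ => by
      rw [hone, map_one]
      exact rfl
    anti := fun d e' _ h1 _ => by
      rw [hone, map_one] at h1
      exact h1
    ψ := fun x => (L.ψ (e.symm x)).rel
    ψ_mul := fun x y a c => by
      rw [hmul, map_mul]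
      exact Iff.rfl
    sep := fun x y hxy a c h => L.sep _ _ hxy a c h
    surj := fun ρ => by
      obtain ⟨x, hx⟩ := L.surj ⟨ρ⟩
      refine ⟨e x, fun a c => ?_⟩
      rw [hone, L.ψ_one]
      simp only [Equiv.symm_apply_apply, hx, HRel.one_rel]
      constructor
      · intro h
        exact ⟨a, c, rfl, h, rfl⟩
      · rintro ⟨p, q, rfl, h, rfl⟩
        exact h }

lemma StartLevel.toLevel_ψ_one {Q : Type u} {H : Type} {T : Type u} [Monoid T] [Finite T]
    (L : StartLevel Q H T) (a c : H) : L.toLevel.ψ 1 a c ↔ a = c := by
  let e : T ≃ Car (Nat.card T) := Finite.equivFin T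
  change (L.ψ (e.symm (e 1))).rel a c ↔ a = c
  rw [Equiv.symm_apply_apply, L.ψ_one]
  exact Iff.rfl

/-- **The top level of a machine for the complement of liveness.** -/
theorem exists_top_level {h : ℕ} {σ : Type u} [Finite σ]
    (B : TwoWayNFA (Fin h → Fin h → Bool) σ) (hB : B.language = (liveness h)ᶜ) :
    ∃ L : Crest.Agent.NF.Level (Option σ) (Fin h), ∀ a c, L.ψ 1 a c ↔ a = c :=
  ⟨(startLevel B hB).toLevel, (startLevel B hB).toLevel_ψ_one⟩

/-- The abstract bound of `Top.lean` from a bound on levels whose identity has relation equality. -/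
theorem coreBound_of_level
    (main : ∀ (Q : Type u) [Finite Q] (h : ℕ) (L : Crest.Agent.NF.Level Q (Fin h)),
      (∀ a c, L.ψ 1 a c ↔ a = c) → 2 ≤ h → 2 ^ ((h - 2) / 68) ≤ Nat.card Q) :
    CoreBound.{u} := by
  intro Q _ T _ _ h L hh
  exact main Q h L.toLevel L.toLevel_ψ_one hh

end Crest.Agent.Lib.NF
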