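import Crest.Agent.Lib.NF.Arena
import Crest.Agent.Lib.NF.TopLevel

/-!
# Row 294 (S0444): the last wrapper

From the kill-count bound at arenas to `CoreBound`.
-/

set_option autoImplicit false

namespace Crest.Agent.NF

open Crest.Agent.Lib.TwoWayBeh (Dart Beh)

universe u

/-- At most `Nat.card Q` darts of one direction. -/
lemma ncard_K_le {Q : Type u} {H : Type} [Finite Q] (L : Level Q H) (b : Bool) (x : L.T) :
    (L.K b x).ncard ≤ Nat.card Q := by
  have hinj : Set.InjOn (fun d : Dart Q => d.1) (L.K b x) := by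
    intro d hd e he hde
    refine Prod.ext hde ?_
    exact hd.2.1.trans he.2.1.symm
  rw [← Set.InjOn.ncard_image hinj]
  exact Set.ncard_le_card _

/-- The kill-count bound at an arena: what the recursion provides. -/
def KappaBound (Q : Type u) (H : Type) : Prop :=
  ∀ (L : Level Q H) (C : Set H) (_ : Arena L C) (F : L.T) (x y : H), x ∈ C → y ∈ C → x ≠ y →
    (∀ a c, L.ψ F a c ↔ (a = c ∧ a ∈ C) ∨ (a = x ∧ c = y)) →
    2 ^ ((C.ncard - 2) / 68) ≤ max (L.K true F).ncard (L.K false F).ncard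

/-- A top level satisfies the bound of `coreBound_of_level`. -/
theorem top_bound {Q : Type u} [Finite Q] (h : ℕ) (hk : KappaBound Q (Fin h))
    (L : Level Q (Fin h)) (hL : ∀ a c, L.ψ 1 a c ↔ a = c) (hh : 2 ≤ h) :
    2 ^ ((h - 2) / 68) ≤ Nat.card Q := by
  obtain ⟨E, hE, hA⟩ := exists_arena_corner L Set.univ ⟨1, fun a c => by simpa using hL a c⟩
  let x : Fin h := ⟨0, by omega⟩
  let y : Fin h := ⟨1, by omega⟩
  have hxy : x ≠ y := by simp [x, y, Fin.ext_iff]
  obtain ⟨F, hF⟩ := hA.lift (fun a c => a = c ∨ (a = x ∧ c = y))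
  have := hk (L.corner hE) Set.univ hA F x y (Set.mem_univ _) (Set.mem_univ _) hxy (fun a c => by
    rw [hF]
    simp)
  have hcard : (Set.univ : Set (Fin h)).ncard = h := by
    simp [Set.ncard_univ]
  rw [hcard] at this
  refine this.trans (max_le (ncard_K_le _ _ _) (ncard_K_le _ _ _))

/-- `CoreBound` from the kill-count bound. -/
theorem coreBound_of_kappa
    (hk : ∀ (Q : Type u) [Finite Q] (h : ℕ), KappaBound Q (Fin h)) :
    Crest.Agent.Lib.NF.CoreBound.{u} :=
  Crest.Agent.Lib.NF.coreBound_of_level (fun Q _ h L hL hh => top_bound h (hk Q h) L hL hh)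

end Crest.Agent.NF
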