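import Crest.Agent.Lib.NF.Split

/-!
Levels: finite monoids with a star morphism to behaviours, reduced at the identity, and a
morphism to relations. Corner levels.
-/

set_option autoImplicit false

namespace Crest.Agent.NF

open Crest.Agent.Lib.TwoWayBeh (Dart Walk Beh starRel)
open Relation

universe u

/-- A level. -/
structure Level (Q : Type u) (H : Type) where
  /-- the monoid -/
  T : Type
  /-- its monoid structure -/
  inst : Monoid T
  /-- finiteness -/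
  fin : Finite T
  /-- the behaviour of an element -/
  δ : T → Beh Q
  δ_mul : ∀ x y, δ (x * y) = δ x * δ y
  /-- the labels of the level -/
  S : Set (Dart Q)
  sup : ∀ x d e, (δ x).rel d e → d ∈ S ∧ e ∈ S
  refl : ∀ d ∈ S, (δ 1).rel d d
  anti : ∀ d e, d.2 = e.2 → (δ 1).rel d e → (δ 1).rel e d → d = e
  /-- the hub relation of an element -/
  ψ : T → H → H → Prop
  ψ_mul : ∀ x y a c, ψ (x * y) a c ↔ ∃ b, ψ x a b ∧ ψ y b c
  /-- more behaviour, less relation -/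
  sep : ∀ x y, δ x ≤ δ y → ∀ a c, ψ y a c → ψ x a c
  surj : ∀ ρ : H → H → Prop, ∃ x, ∀ a c, ψ x a c ↔ ∃ p q, ψ 1 a p ∧ ρ p q ∧ ψ 1 q c

attribute [instance] Level.inst Level.fin

/-- The corner of an element of a monoid. -/
def Cor {T : Type} [Monoid T] (E : T) : Type := {t : T // E * t = t ∧ t * E = t}

/-- The monoid structure of the corner of an idempotent. -/
@[reducible] def corMonoid {T : Type} [Monoid T] (E : T) (hE : E * E = E) : Monoid (Cor E) where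
  mul a b := ⟨a.1 * b.1, by rw [← mul_assoc, a.2.1], by rw [mul_assoc, b.2.2]⟩
  one := ⟨E, hE, hE⟩
  mul_assoc a b c := Subtype.ext (mul_assoc _ _ _)
  one_mul a := Subtype.ext a.2.1
  mul_one a := Subtype.ext a.2.2

/-- Sandwiching into the corner. -/
def Cor.sand {T : Type} [Monoid T] {E : T} (hE : E * E = E) (t : T) : Cor E :=
  ⟨E * (t * E), by rw [← mul_assoc, hE], by rw [mul_assoc, mul_assoc, hE]⟩

namespace Level

variable {Q : Type u} {H : Type} (L : Level Q H)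

lemma δ_idem {y : L.T} (hy : y * y = y) : L.δ y * L.δ y = L.δ y := by rw [← L.δ_mul, hy]

lemma inCorner {y x : L.T} (hl : y * x = x) (hr : x * y = x) : InCorner (L.δ y) (L.δ x) :=
  ⟨by rw [← L.δ_mul, hl], by rw [← L.δ_mul, hr]⟩

/-- The chosen representatives of an idempotent. -/
noncomputable def rp {y : L.T} (hy : y * y = y) : Set (Dart Q) :=
  Classical.choose (exists_reps (L.δ_idem hy))

lemma rp_reg {y : L.T} (hy : y * y = y) : ∀ d ∈ L.rp hy, Reg (L.δ y) d :=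
  (Classical.choose_spec (exists_reps (L.δ_idem hy))).1

lemma rp_anti {y : L.T} (hy : y * y = y) :
    ∀ d ∈ L.rp hy, ∀ e ∈ L.rp hy, Xi (L.δ y) (L.δ y) d e → Xi (L.δ y) (L.δ y) e d → d = e :=
  (Classical.choose_spec (exists_reps (L.δ_idem hy))).2.1

lemma rp_cover {y : L.T} (hy : y * y = y) :
    ∀ r, Reg (L.δ y) r → ∃ e ∈ L.rp hy, Xi (L.δ y) (L.δ y) r e ∧ Xi (L.δ y) (L.δ y) e r :=
  (Classical.choose_spec (exists_reps (L.δ_idem hy))).2.2

variable [Finite Q]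

/-- **The corner level of an idempotent.** -/
noncomputable def corner {y : L.T} (hy : y * y = y) : Level Q H where
  T := Cor y
  inst := corMonoid y hy
  fin := Subtype.finite
  δ x := bB (L.δ y) (L.rp hy) * (L.δ x.1 * aB (L.δ y) (L.rp hy))
  δ_mul x w := by
    have hab : aB (L.δ y) (L.rp hy) * bB (L.δ y) (L.rp hy) = L.δ y :=
      ab_eq (L.δ_idem hy) (L.rp_cover hy)
    have hX : L.δ x.1 * L.δ y = L.δ x.1 := by rw [← L.δ_mul, x.2.2]
    change bB (L.δ y) (L.rp hy) * (L.δ (x.1 * w.1) * aB (L.δ y) (L.rp hy)) = _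
    rw [L.δ_mul]
    calc bB (L.δ y) (L.rp hy) * ((L.δ x.1 * L.δ w.1) * aB (L.δ y) (L.rp hy))
        = bB (L.δ y) (L.rp hy) * (L.δ x.1 * (L.δ y * (L.δ w.1 * aB (L.δ y) (L.rp hy)))) := by
          rw [← mul_assoc (L.δ x.1) (L.δ y), hX, mul_assoc]
      _ = bB (L.δ y) (L.rp hy) * (L.δ x.1 * ((aB (L.δ y) (L.rp hy) * bB (L.δ y) (L.rp hy)) *
            (L.δ w.1 * aB (L.δ y) (L.rp hy)))) := by rw [hab]
      _ = _ := by simp only [mul_assoc]
  S := L.rp hy
  sup x d e h := sand_sup h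
  refl d hd := by
    have hc : InCorner (L.δ y) (L.δ y) := inCorner_self (L.δ_idem hy)
    exact (sand_through hc (L.rp_reg hy) rfl).2 ⟨hd, hd, L.rp_reg hy d hd⟩
  anti d e hde h1 h2 := by
    have hc : InCorner (L.δ y) (L.δ y) := inCorner_self (L.δ_idem hy)
    obtain ⟨hd, he, h3⟩ := (sand_through hc (L.rp_reg hy) hde).1 h1
    obtain ⟨_, _, h4⟩ := (sand_through hc (L.rp_reg hy) hde.symm).1 h2
    exact L.rp_anti hy d hd e he h3 h4
  ψ x := L.ψ x.1
  ψ_mul x w a c := L.ψ_mul x.1 w.1 a c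
  sep x w h a c := by
    have hab : aB (L.δ y) (L.rp hy) * bB (L.δ y) (L.rp hy) = L.δ y :=
      ab_eq (L.δ_idem hy) (L.rp_cover hy)
    have hrec : ∀ x : Cor y, L.δ x.1 = aB (L.δ y) (L.rp hy) *
        ((bB (L.δ y) (L.rp hy) * (L.δ x.1 * aB (L.δ y) (L.rp hy))) * bB (L.δ y) (L.rp hy)) := by
      intro x
      have h1 : L.δ y * (L.δ x.1 * L.δ y) = L.δ x.1 := by
        rw [← L.δ_mul, ← L.δ_mul, x.2.2, x.2.1]
      calc L.δ x.1 = L.δ y * (L.δ x.1 * L.δ y) := h1.symm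
        _ = (aB (L.δ y) (L.rp hy) * bB (L.δ y) (L.rp hy)) *
            (L.δ x.1 * (aB (L.δ y) (L.rp hy) * bB (L.δ y) (L.rp hy))) := by rw [hab]
        _ = _ := by simp only [mul_assoc]
    apply L.sep x.1 w.1
    rw [hrec x, hrec w]
    exact Beh.mul_le_mul' (fun _ _ h => h) (Beh.mul_le_mul' h (fun _ _ h => h))
  surj ρ := by
    obtain ⟨x, hx⟩ := L.surj ρ
    refine ⟨Cor.sand hy x, ?_⟩
    intro a c
    have hy1 : ∀ a p, L.ψ y a p ↔ ∃ p', L.ψ y a p' ∧ L.ψ 1 p' p := by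
      intro a p
      rw [← L.ψ_mul, mul_one]
    have h1y : ∀ q c, L.ψ y q c ↔ ∃ q', L.ψ 1 q q' ∧ L.ψ y q' c := by
      intro q c
      rw [← L.ψ_mul, one_mul]
    change L.ψ (y * (x * y)) a c ↔ ∃ p q, L.ψ y a p ∧ ρ p q ∧ L.ψ y q c
    constructor
    · intro h
      obtain ⟨v, h1, h2⟩ := (L.ψ_mul _ _ _ _).1 h
      obtain ⟨u, h3, h4⟩ := (L.ψ_mul _ _ _ _).1 h2
      obtain ⟨p, q, h5, h6, h7⟩ := (hx _ _).1 h3
      exact ⟨p, q, (hy1 _ _).2 ⟨v, h1, h5⟩, h6, (h1y _ _).2 ⟨u, h7, h4⟩⟩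
    · rintro ⟨p, q, h1, h2, h3⟩
      obtain ⟨v, h4, h5⟩ := (hy1 _ _).1 h1
      obtain ⟨u, h6, h7⟩ := (h1y _ _).1 h3
      refine (L.ψ_mul _ _ _ _).2 ⟨v, h4, (L.ψ_mul _ _ _ _).2 ⟨u, (hx _ _).2 ⟨p, q, h5, h2, h6⟩, h7⟩⟩

/-- The through part of the corner level. -/
lemma corner_through {y : L.T} (hy : y * y = y) (x : (L.corner hy).T) {d e : Dart Q}
    (hde : d.2 = e.2) :
    ((L.corner hy).δ x).rel d e ↔ d ∈ L.rp hy ∧ e ∈ L.rp hy ∧ Xi (L.δ y) (L.δ x.1) d e :=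
  sand_through (L.inCorner x.2.1 x.2.2) (L.rp_reg hy) hde

lemma corner_one_val {y : L.T} (hy : y * y = y) : ((1 : (L.corner hy).T)).1 = y := rfl

lemma corner_mul_val {y : L.T} (hy : y * y = y) (a b : (L.corner hy).T) :
    (a * b).1 = a.1 * b.1 := rfl

lemma corner_ψ {y : L.T} (hy : y * y = y) (x : (L.corner hy).T) : (L.corner hy).ψ x = L.ψ x.1 := rfl

end Level

end Crest.Agent.NF
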