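import Crest.Agent.Lib.NF.Chain
import Crest.Agent.Lib.NF.Final

/-!
# Row 294 (S0444): the kill-count bound at arenas, and `CoreBound`
-/

set_option autoImplicit false

namespace Crest.Agent.NF

universe u

/-- `KappaBound` from the chain recursion `kappa_all`. -/
theorem kappaBound (Q : Type u) [Finite Q] (h : ℕ) : KappaBound Q (Fin h) := by
  intro L C hA F x y hx hy hxy hF
  have hcard : 2 ≤ C.ncard := by
    have hfin : C.Finite := Set.toFinite C
    have hsub : ({x, y} : Set (Fin h)) ⊆ C := by
      intro z hz
      rcases hz with rfl | rfl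
      · exact hx
      · exact hy
    have := Set.ncard_le_ncard hsub hfin
    rwa [Set.ncard_pair hxy] at this
  have hk : 68 * ((C.ncard - 2) / 68) + 2 ≤ C.ncard := by
    have := Nat.mul_div_le (C.ncard - 2) 68
    omega
  obtain ⟨b, hb⟩ := kappa_all ((C.ncard - 2) / 68) L C hA hk F x y hx hy hxy hF
  cases b with
  | true => exact le_max_of_le_left hb
  | false => exact le_max_of_le_right hb

/-- The core bound of S0444. -/
theorem coreBound : Crest.Agent.Lib.NF.CoreBound.{u} :=
  coreBound_of_kappa (fun Q _ h => kappaBound Q h)

end Crest.Agent.NF
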