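import Crest.Agent.Lib.NF.Basic

/-!
The through part and the support of `b * X * a`.
-/

set_option autoImplicit false

namespace Crest.Agent.NF

open Crest.Agent.Lib.TwoWayBeh (Dart Walk Beh starRel)
open Relation

universe u

variable {Q : Type u}

lemma mul_mono_right_true {A B B' : Beh Q} (hB : ∀ p r, p.2 = true → B.rel p r → B'.rel p r)
    {z u : Dart Q} (hz : z.2 = true) (h : (A * B).rel z u) : (A * B').rel z u := by
  rcases mul_rel_iff.1 h with h | ⟨z0, z1, h1, h2, h3⟩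
  · rcases h with ⟨h4, h5, h6⟩ | ⟨h4, _, _⟩
    · exact mul_of_noCross (Or.inl ⟨h4, h5, h6⟩)
    · simp [hz] at h4
  · refine mul_of_chain (z0 := z0) (z1 := z1) ?_ ?_ ?_
    · rcases h1 with ⟨h4, h5, h6⟩ | ⟨h4, _, _⟩
      · exact Or.inl ⟨h4, h5, h6⟩
      · simp [hz] at h4
    · refine ReflTransGen.mono ?_ _ _ h2
      rintro p r (⟨h4, h5, h6⟩ | ⟨h4, h5, h6⟩)
      · exact Or.inl ⟨h4, h5, hB _ _ h4 h6⟩
      · exact Or.inr ⟨h4, h5, h6⟩
    · rcases h3 with ⟨h4, h5, h6⟩ | ⟨h4, h5, h6⟩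
      · exact Or.inl ⟨h4, h5, hB _ _ h4 h6⟩
      · exact Or.inr ⟨h4, h5, h6⟩

lemma mul_mono_left_false {A A' B : Beh Q} (hA : ∀ p r, p.2 = false → A.rel p r → A'.rel p r)
    {z u : Dart Q} (hz : z.2 = false) (h : (A * B).rel z u) : (A' * B).rel z u := by
  rcases mul_rel_iff.1 h with h | ⟨z0, z1, h1, h2, h3⟩
  · rcases h with ⟨h4, _, _⟩ | ⟨h4, h5, h6⟩
    · simp [hz] at h4
    · exact mul_of_noCross (Or.inr ⟨h4, h5, h6⟩)
  · refine mul_of_chain (z0 := z0) (z1 := z1) ?_ ?_ ?_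
    · rcases h1 with ⟨h4, _, _⟩ | ⟨h4, h5, h6⟩
      · simp [hz] at h4
      · exact Or.inr ⟨h4, h5, h6⟩
    · refine ReflTransGen.mono ?_ _ _ h2
      rintro p r (⟨h4, h5, h6⟩ | ⟨h4, h5, h6⟩)
      · exact Or.inl ⟨h4, h5, h6⟩
      · exact Or.inr ⟨h4, h5, hA _ _ h4 h6⟩
    · rcases h3 with ⟨h4, h5, h6⟩ | ⟨h4, h5, h6⟩
      · exact Or.inl ⟨h4, h5, h6⟩
      · exact Or.inr ⟨h4, h5, hA _ _ h4 h6⟩

section through

variable {Y X : Beh Q} {Rp : Set (Dart Q)}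

lemma a_rel_true {p r : Dart Q} (h : (aB Y Rp).rel p r) (hp : p.2 = true) : Y.rel p r := by
  rcases h with ⟨_, _, h, _⟩ | ⟨h, _⟩ | ⟨_, _, h⟩
  · exact h
  · simp [hp] at h
  · exact h

lemma b_rel_false {p r : Dart Q} (h : (bB Y Rp).rel p r) (hp : p.2 = false) : Y.rel p r := by
  rcases h with ⟨h, _⟩ | ⟨_, _, h, _⟩ | ⟨_, _, h⟩
  · simp [hp] at h
  · exact h
  · exact h

lemma Xa_true (hX : InCorner Y X) {z u : Dart Q} (hz : z.2 = true) (h : (X * aB Y Rp).rel z u) :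
    X.rel z u := by
  have := mul_mono_right_true (B' := Y) (fun p r hp hr => a_rel_true hr hp) hz h
  rwa [hX.right] at this

lemma bX_false (hX : InCorner Y X) {z u : Dart Q} (hz : z.2 = false) (h : (bB Y Rp * X).rel z u) :
    X.rel z u := by
  have := mul_mono_left_false (A' := Y) (fun p r hp hr => b_rel_false hr hp) hz h
  rwa [hX.left] at this

lemma Xa_dom {z u : Dart Q} (hz : z.2 = false) (h : (X * aB Y Rp).rel z u) : z ∈ Rp := by
  rcases mul_rel_iff.1 h with h | ⟨z0, z1, h1, _, _⟩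
  · rcases h with ⟨h4, _, _⟩ | ⟨_, h5, h6⟩
    · simp [hz] at h4
    · rcases h6 with ⟨h, _⟩ | ⟨_, h, _⟩ | ⟨h, _⟩
      · simp [hz] at h
      · simp [h5] at h
      · simp [hz] at h
  · rcases h1 with ⟨h4, _, _⟩ | ⟨_, h5, h6⟩
    · simp [hz] at h4
    · rcases h6 with ⟨h, _⟩ | ⟨_, _, h, _⟩ | ⟨h, _⟩
      · simp [hz] at h
      · exact h
      · simp [hz] at h

lemma Xa_cod {z u : Dart Q} (hu : u.2 = true) (h : (X * aB Y Rp).rel z u) : u ∈ Rp := by
  rcases mul_rel_iff.1 h with h | ⟨z0, z1, _, _, h3⟩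
  · rcases h with ⟨_, h5, _⟩ | ⟨h4, _, h6⟩
    · simp [hu] at h5
    · rcases h6 with ⟨h, _⟩ | ⟨_, h, _⟩ | ⟨h, _⟩
      · simp [h4] at h
      · simp [hu] at h
      · simp [h4] at h
  · rcases h3 with ⟨_, _, h6⟩ | ⟨_, h5, _⟩
    · rcases h6 with ⟨_, _, _, h⟩ | ⟨_, h, _⟩ | ⟨_, h, _⟩
      · exact h
      · simp [hu] at h
      · simp [hu] at h
    · simp [hu] at h5

lemma bX_dom {z u : Dart Q} (hz : z.2 = true) (h : (bB Y Rp * X).rel z u) : z ∈ Rp := by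
  rcases mul_rel_iff.1 h with h | ⟨z0, z1, h1, _, _⟩
  · rcases h with ⟨_, h5, h6⟩ | ⟨h4, _, _⟩
    · rcases h6 with ⟨_, h, _⟩ | ⟨h, _⟩ | ⟨h, _⟩
      · simp [h5] at h
      · simp [hz] at h
      · simp [hz] at h
    · simp [hz] at h4
  · rcases h1 with ⟨_, _, h6⟩ | ⟨h4, _, _⟩
    · rcases h6 with ⟨_, _, h, _⟩ | ⟨h, _⟩ | ⟨h, _⟩
      · exact h
      · simp [hz] at h
      · simp [hz] at h
    · simp [hz] at h4

lemma bX_cod {z u : Dart Q} (hu : u.2 = false) (h : (bB Y Rp * X).rel z u) : u ∈ Rp := by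
  rcases mul_rel_iff.1 h with h | ⟨z0, z1, _, _, h3⟩
  · rcases h with ⟨h4, _, h6⟩ | ⟨_, h5, _⟩
    · rcases h6 with ⟨_, h, _⟩ | ⟨h, _⟩ | ⟨h, _⟩
      · simp [hu] at h
      · simp [h4] at h
      · simp [h4] at h
    · simp [hu] at h5
  · rcases h3 with ⟨_, h5, _⟩ | ⟨_, _, h6⟩
    · simp [hu] at h5
    · rcases h6 with ⟨_, h, _⟩ | ⟨_, _, _, h⟩ | ⟨_, h, _⟩
      · simp [hu] at h
      · exact h
      · simp [hu] at h

/-- Support of `b * X * a`. -/
lemma sand_sup {d e : Dart Q} (h : (bB Y Rp * (X * aB Y Rp)).rel d e) : d ∈ Rp ∧ e ∈ Rp := by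
  constructor
  · cases hd : d.2 with
    | true =>
      have h' : ((bB Y Rp * X) * aB Y Rp).rel d e := by rwa [mul_assoc]
      rcases mul_rel_iff.1 h' with h | ⟨z0, z1, h1, _, _⟩
      · rcases h with ⟨_, _, h6⟩ | ⟨h4, _, _⟩
        · exact bX_dom hd h6
        · simp [hd] at h4
      · rcases h1 with ⟨_, _, h6⟩ | ⟨h4, _, _⟩
        · exact bX_dom hd h6
        · simp [hd] at h4
    | false =>
      rcases mul_rel_iff.1 h with h | ⟨z0, z1, h1, _, _⟩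
      · rcases h with ⟨h4, _, _⟩ | ⟨_, _, h6⟩
        · simp [hd] at h4
        · exact Xa_dom hd h6
      · rcases h1 with ⟨h4, _, _⟩ | ⟨_, _, h6⟩
        · simp [hd] at h4
        · exact Xa_dom hd h6
  · cases he : e.2 with
    | true =>
      rcases mul_rel_iff.1 h with h | ⟨z0, z1, _, _, h3⟩
      · rcases h with ⟨_, h5, _⟩ | ⟨_, _, h6⟩
        · simp [he] at h5
        · exact Xa_cod he h6
      · rcases h3 with ⟨_, _, h6⟩ | ⟨_, h5, _⟩
        · exact Xa_cod he h6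
        · simp [he] at h5
    | false =>
      have h' : ((bB Y Rp * X) * aB Y Rp).rel d e := by rwa [mul_assoc]
      rcases mul_rel_iff.1 h' with h | ⟨z0, z1, _, _, h3⟩
      · rcases h with ⟨_, _, h6⟩ | ⟨_, h5, _⟩
        · exact bX_cod he h6
        · simp [he] at h5
      · rcases h3 with ⟨_, h5, _⟩ | ⟨_, _, h6⟩
        · simp [he] at h5
        · exact bX_cod he h6

/-- **The through part of `b * X * a`.** -/
theorem sand_through (hX : InCorner Y X) (hreg : ∀ d ∈ Rp, Reg Y d) {d e : Dart Q}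
    (hde : d.2 = e.2) :
    (bB Y Rp * (X * aB Y Rp)).rel d e ↔ d ∈ Rp ∧ e ∈ Rp ∧ Xi Y X d e := by
  constructor
  · intro h
    obtain ⟨hd, he⟩ := sand_sup h
    refine ⟨hd, he, hde, ?_⟩
    cases hd2 : d.2 with
    | true =>
      have he2 : e.2 = true := by rw [← hde, hd2]
      obtain ⟨z0, z1, h1, h2, h3⟩ := mul_through h hde
      rcases h1 with ⟨_, hz0, h4⟩ | ⟨h4, _, _⟩
      · obtain ⟨_, g, h5, h6, h7⟩ : Xi Y Y d z0 := by
          rcases h4 with ⟨_, _, _, h⟩ | ⟨h, _⟩ | ⟨h, _⟩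
          · exact h
          · simp [hd2] at h
          · simp [hd2] at h
        refine ⟨g, h5, by rw [h6, hd2], ?_⟩
        have hc : (Y * X).rel g e := by
          refine mul_of_chain (z0 := z0) (z1 := z1) (Or.inl ⟨by rw [h6, hd2], hz0, h7⟩) ?_ ?_
          · refine ReflTransGen.mono ?_ _ _ h2
            rintro p r (⟨h8, h9, h10⟩ | ⟨h8, h9, h10⟩)
            · exact Or.inl ⟨h8, h9, Xa_true hX h8 h10⟩
            · exact Or.inr ⟨h8, h9, b_rel_false h10 h8⟩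
          · rcases h3 with ⟨h8, h9, h10⟩ | ⟨_, h9, _⟩
            · exact Or.inl ⟨h8, h9, Xa_true hX h8 h10⟩
            · simp [he2] at h9
        rwa [hX.left] at hc
      · simp [hd2] at h4
    | false =>
      have he2 : e.2 = false := by rw [← hde, hd2]
      have h' : ((bB Y Rp * X) * aB Y Rp).rel d e := by rwa [mul_assoc]
      obtain ⟨z0, z1, h1, h2, h3⟩ := mul_through h' hde
      rcases h1 with ⟨h4, _, _⟩ | ⟨_, hz0, h4⟩
      · simp [hd2] at h4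
      · obtain ⟨_, g, h5, h6, h7⟩ : Xi Y Y d z0 := by
          rcases h4 with ⟨h, _⟩ | ⟨_, _, _, h⟩ | ⟨h, _⟩
          · simp [hd2] at h
          · exact h
          · simp [hd2] at h
        refine ⟨g, h5, by rw [h6, hd2], ?_⟩
        have hc : (X * Y).rel g e := by
          refine mul_of_chain (z0 := z0) (z1 := z1) (Or.inr ⟨by rw [h6, hd2], hz0, h7⟩) ?_ ?_
          · refine ReflTransGen.mono ?_ _ _ h2
            rintro p r (⟨h8, h9, h10⟩ | ⟨h8, h9, h10⟩)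
            · exact Or.inl ⟨h8, h9, a_rel_true h10 h8⟩
            · exact Or.inr ⟨h8, h9, bX_false hX h8 h10⟩
          · rcases h3 with ⟨_, h9, _⟩ | ⟨h8, h9, h10⟩
            · simp [he2] at h9
            · exact Or.inr ⟨h8, h9, bX_false hX h8 h10⟩
        rwa [hX.right] at hc
  · rintro ⟨hd, he, _, g, h1, h2, h3⟩
    have hdr := hreg d hd
    obtain ⟨_, g', h4, h5, h6⟩ := hreg e he
    cases hd2 : d.2 with
    | true =>
      have he2 : e.2 = true := by rw [← hde, hd2]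
      have hg2 : g.2 = true := by rw [h2, hd2]
      have hg'2 : g'.2 = true := by rw [h5, he2]
      -- `X * a` from `g` to `e`
      have hZ : (X * aB Y Rp).rel g e := by
        refine mul_of_chain (z0 := e) (z1 := g') (Or.inl ⟨hg2, he2, h3⟩) ?_
          (Or.inl ⟨hg'2, he2, Or.inl ⟨hg'2, he2, h6, he⟩⟩)
        refine ReflTransGen.mono ?_ _ _ h4
        rintro p r (⟨h8, h9, h10⟩ | ⟨h8, h9, h10⟩)
        · exact Or.inl ⟨h8, h9, Or.inr (Or.inr ⟨h8, h9, h10⟩)⟩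
        · exact Or.inr ⟨h8, h9, hX.rel_of_right_cup h10 h8 h9⟩
      refine mul_of_chain (z0 := d) (z1 := g) (Or.inl ⟨hd2, hd2, Or.inl ⟨hd2, hd2, hd, hdr⟩⟩) ?_
        (Or.inl ⟨hg2, he2, hZ⟩)
      refine ReflTransGen.mono ?_ _ _ h1
      rintro p r (⟨h8, h9, h10⟩ | ⟨h8, h9, h10⟩)
      · exact Or.inl ⟨h8, h9, mul_of_noCross (Or.inl ⟨h8, h9, hX.rel_of_left_cup h10 h8 h9⟩)⟩
      · exact Or.inr ⟨h8, h9, Or.inr (Or.inr ⟨h8, h9, h10⟩)⟩
    | false =>
      have he2 : e.2 = false := by rw [← hde, hd2]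
      have hg2 : g.2 = false := by rw [h2, hd2]
      have hg'2 : g'.2 = false := by rw [h5, he2]
      rw [← mul_assoc]
      have hZ : (bB Y Rp * X).rel g e := by
        refine mul_of_chain (z0 := e) (z1 := g') (Or.inr ⟨hg2, he2, h3⟩) ?_
          (Or.inr ⟨hg'2, he2, Or.inr (Or.inl ⟨hg'2, he2, h6, he⟩)⟩)
        refine ReflTransGen.mono ?_ _ _ h4
        rintro p r (⟨h8, h9, h10⟩ | ⟨h8, h9, h10⟩)
        · exact Or.inl ⟨h8, h9, hX.rel_of_left_cup h10 h8 h9⟩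
        · exact Or.inr ⟨h8, h9, Or.inr (Or.inr ⟨h8, h9, h10⟩)⟩
      refine mul_of_chain (z0 := d) (z1 := g)
        (Or.inr ⟨hd2, hd2, Or.inr (Or.inl ⟨hd2, hd2, hd, hdr⟩)⟩) ?_ (Or.inr ⟨hg2, he2, hZ⟩)
      refine ReflTransGen.mono ?_ _ _ h1
      rintro p r (⟨h8, h9, h10⟩ | ⟨h8, h9, h10⟩)
      · exact Or.inl ⟨h8, h9, Or.inr (Or.inr ⟨h8, h9, h10⟩)⟩
      · exact Or.inr ⟨h8, h9, mul_of_noCross (Or.inr ⟨h8, h9, hX.rel_of_right_cup h10 h8 h9⟩)⟩

end through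

end Crest.Agent.NF
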