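import Crest.Agent.Lib.NF.Unit

/-!
Step (6) of row 294, #2142: from any arc lift `F` in an arena to the family `G a c` at the corner
of the min lift of `id` on `C \ {x, y}`, with few non clean lines.
-/

set_option autoImplicit false

namespace Crest.Agent.NF

open Crest.Agent.Lib.TwoWayBeh (Dart Beh)
open Relation

universe u

variable {Q : Type u} {H : Type}

/-- The list of a dart at the cut `Y | Y`. -/
def crossOf (Y : Beh Q) (e : Dart Q) : Set (Dart Q) :=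
  {z | ∃ g, ReflTransGen (Hop Y Y) e g ∧ g.2 = e.2 ∧ On Y Y g e z}

/-- The crossing darts of an arc are ends of arcs of the factors. -/
lemma On.exists_arc {A B : Beh Q} {g e z : Dart Q} (h : On A B g e z) :
    ∃ p, A.rel p z ∨ B.rel p z := by
  obtain ⟨z0, _, h1, h2, _, _⟩ := h
  cases ReflTransGen.cases_tail h2 with
  | inl h =>
    subst h
    rcases h1 with ⟨_, _, h⟩ | ⟨_, _, h⟩
    · exact ⟨_, Or.inl h⟩
    · exact ⟨_, Or.inr h⟩
  | inr h =>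
    obtain ⟨c, _, hc⟩ := h
    rcases hc with ⟨_, _, h⟩ | ⟨_, _, h⟩
    · exact ⟨_, Or.inr h⟩
    · exact ⟨_, Or.inl h⟩

section corner

variable {L : Level Q H} {E : L.T} (hE : E * E = E)

/-- Lists of distinct representatives of the same direction are disjoint. -/
lemma crossOf_disjoint {e e' z : Dart Q} (he : e ∈ L.rp hE) (he' : e' ∈ L.rp hE)
    (hdir : e.2 = e'.2) (hz : z ∈ crossOf (L.δ E) e) (hz' : z ∈ crossOf (L.δ E) e') : e = e' := by
  obtain ⟨g, h1, h2, h3⟩ := hz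
  obtain ⟨g', h1', h2', h3'⟩ := hz'
  have h4 : (L.δ E * L.δ E).rel g e' := h3.cross h3'
  have h5 : (L.δ E * L.δ E).rel g' e := h3'.cross h3
  rw [L.δ_idem hE] at h4 h5
  exact L.rp_anti hE e he e' he' ⟨hdir, g, h1, h2, h4⟩ ⟨hdir.symm, g', h1', h2', h5⟩

variable [Finite Q]

/-- **KEY.** If the list of `e` is fixed by `t` then `e` is fixed by the sandwich of `t`. -/
lemma fix_sand_of_cross {e : Dart Q} (he : e ∈ L.rp hE) (t : L.T)
    (ht : ∀ z ∈ crossOf (L.δ E) e, L.Fix t z) :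
    (L.corner hE).Fix (Cor.sand hE t) e := by
  obtain ⟨_, g, h1, h2, h3⟩ := L.rp_reg hE e he
  have h4 : (L.δ E * L.δ E).rel g e := by rw [L.δ_idem hE]; exact h3
  have h5 := persist (t := L.δ t) (h2.trans rfl) h4 (fun z hz => ht z ⟨g, h1, h2, hz⟩)
  unfold Level.Fix
  rw [L.corner_through hE _ rfl]
  refine ⟨he, he, rfl, g, h1, h2, ?_⟩
  change (L.δ (E * (t * E))).rel g e
  rw [L.δ_mul, L.δ_mul]
  exact h5

end corner

/-- A set union over a finset, bounded. -/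
lemma ncard_biUnion_le {α D : Type*} (s : Finset α) (f : α → Set D) (N : ℕ)
    (h : ∀ a ∈ s, (f a).ncard ≤ N) : (⋃ a ∈ s, f a).ncard ≤ s.card * N := by
  classical
  induction s using Finset.induction_on with
  | empty => simp
  | insert a s ha ih =>
    rw [Finset.set_biUnion_insert, Finset.card_insert_of_notMem ha]
    have h1 := Set.ncard_union_le (f a) (⋃ a ∈ s, f a)
    have h2 := h a (Finset.mem_insert_self _ _)
    have h3 := ih (fun b hb => h b (Finset.mem_insert_of_mem hb))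
    rw [add_mul, one_mul]
    omega

namespace Arena

variable {L : Level Q H} {C : Set H}

/-- Relation of a two-sided inverse of an element with the relation `ρ * σ = id`. -/
lemma lift_perm (hA : Arena L C) (π : Equiv.Perm H) (hπ : ∀ a, π a ∈ C ↔ a ∈ C) :
    ∃ g v : L.T, g * v = 1 ∧ v * g = 1 ∧ (∀ a c, L.ψ g a c ↔ a ∈ C ∧ π a = c) ∧
      (∀ a c, L.ψ v a c ↔ c ∈ C ∧ π c = a) := by
  obtain ⟨g, hg⟩ := hA.lift (fun a c => π a = c)
  obtain ⟨h, hh⟩ := hA.lift (fun a c => π c = a)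
  have hg' : ∀ a c, L.ψ g a c ↔ a ∈ C ∧ π a = c := by
    intro a c
    rw [hg]
    constructor
    · rintro ⟨h1, h2, _⟩
      exact ⟨h1, h2⟩
    · rintro ⟨h1, rfl⟩
      exact ⟨h1, rfl, (hπ a).2 h1⟩
  have hh' : ∀ a c, L.ψ h a c ↔ c ∈ C ∧ π c = a := by
    intro a c
    rw [hh]
    constructor
    · rintro ⟨_, h2, h3⟩
      exact ⟨h3, h2⟩
    · rintro ⟨h1, rfl⟩
      exact ⟨(hπ c).2 h1, rfl, h1⟩
  have hgh : ∀ a c, L.ψ (g * h) a c ↔ a = c ∧ a ∈ C := by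
    intro a c
    rw [L.ψ_mul]
    constructor
    · rintro ⟨b, h1, h2⟩
      obtain ⟨h3, rfl⟩ := (hg' _ _).1 h1
      obtain ⟨h4, h5⟩ := (hh' _ _).1 h2
      exact ⟨π.injective h5.symm, h3⟩
    · rintro ⟨rfl, h1⟩
      exact ⟨π a, (hg' _ _).2 ⟨h1, rfl⟩, (hh' _ _).2 ⟨h1, rfl⟩⟩
  have hhg : ∀ a c, L.ψ (h * g) a c ↔ a = c ∧ a ∈ C := by
    intro a c
    rw [L.ψ_mul]
    constructor
    · rintro ⟨b, h1, h2⟩
      obtain ⟨h3, h4⟩ := (hh' _ _).1 h1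
      obtain ⟨_, h6⟩ := (hg' _ _).1 h2
      refine ⟨?_, ?_⟩
      · rw [← h4, h6]
      · rw [← h4]; exact (hπ b).2 h3
    · rintro ⟨rfl, h1⟩
      have h2 : π.symm a ∈ C := by
        have := (hπ (π.symm a))
        rw [Equiv.apply_symm_apply] at this
        exact this.1 h1
      refine ⟨π.symm a, (hh' _ _).2 ⟨h2, by simp⟩, (hg' _ _).2 ⟨h2, by simp⟩⟩
  obtain ⟨w, hw1, hw2⟩ := hA.unit _ hgh
  obtain ⟨w', hw1', hw2'⟩ := hA.unit _ hhg
  have h1 : g * (h * w) = 1 := by rw [← mul_assoc]; exact hw2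
  have h2 : (w' * h) * g = 1 := by rw [mul_assoc]; exact hw1'
  have h3 : w' * h = h * w := by
    calc w' * h = (w' * h) * (g * (h * w)) := by rw [h1, mul_one]
      _ = ((w' * h) * g) * (h * w) := by simp only [mul_assoc]
      _ = h * w := by rw [h2, one_mul]
  refine ⟨g, h * w, h1, by rw [← h3]; exact h2, hg', ?_⟩
  -- the relation of the inverse
  have h4 : (h * w) * (g * h) = h := by
    calc (h * w) * (g * h) = ((h * w) * g) * h := by simp only [mul_assoc]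
      _ = h := by rw [← h3, h2, one_mul]
  intro a c
  rw [← hh' a c]
  constructor
  · intro hv
    rw [← h4, L.ψ_mul]
    have hv' : L.ψ ((h * w) * 1) a c := by rwa [mul_one]
    obtain ⟨b, h5, h6⟩ := (L.ψ_mul _ _ _ _).1 hv'
    obtain ⟨rfl, h7⟩ := (hA.one _ _).1 h6
    exact ⟨b, h5, (hgh _ _).2 ⟨rfl, h7⟩⟩
  · intro hv
    rw [← h4, L.ψ_mul] at hv
    obtain ⟨b, h5, h6⟩ := hv
    obtain ⟨rfl, h7⟩ := (hgh _ _).1 h6
    exact h5

/-- A bijection of `C` moving `x, y` to `a0, b0`, extended to `H`. -/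
lemma exists_perm (C : Set H) {x y a0 b0 : H} (hx : x ∈ C) (hy : y ∈ C) (hxy : x ≠ y)
    (ha0 : a0 ∈ C) (hb0 : b0 ∈ C) (h0 : a0 ≠ b0) :
    ∃ π : Equiv.Perm H, (∀ a, π a ∈ C ↔ a ∈ C) ∧ π a0 = x ∧ π b0 = y := by
  classical
  have hswap : ∀ p q : H, p ∈ C → q ∈ C → ∀ a, Equiv.swap p q a ∈ C ↔ a ∈ C := by
    intro p q hp hq a
    by_cases h1 : a = p
    · subst h1; simp [hp, hq]
    · by_cases h2 : a = q
      · subst h2; simp [hp, hq]
      · rw [Equiv.swap_apply_of_ne_of_ne h1 h2]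
  set b1 := Equiv.swap a0 x b0 with hb1
  have hb1C : b1 ∈ C := (hswap a0 x ha0 hx b0).2 hb0
  have hb1x : b1 ≠ x := by
    intro h
    have : Equiv.swap a0 x b0 = Equiv.swap a0 x a0 := by rw [← hb1, h]; simp
    exact h0 ((Equiv.swap a0 x).injective this).symm
  refine ⟨Equiv.swap a0 x |>.trans (Equiv.swap b1 y), ?_, ?_, ?_⟩
  · intro a
    rw [Equiv.trans_apply, hswap b1 y hb1C hy, hswap a0 x ha0 hx]
  · rw [Equiv.trans_apply, Equiv.swap_apply_left,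
      Equiv.swap_apply_of_ne_of_ne hb1x.symm hxy]
  · rw [Equiv.trans_apply, ← hb1, Equiv.swap_apply_left]

/-- The relation of a left inverse of an element of relation `id`. -/
lemma inv_rel (hA : Arena L C) {u v : L.T} (hu : ∀ a c, L.ψ u a c ↔ a = c ∧ a ∈ C) (hv : v * u = 1)
    (a c : H) : L.ψ v a c ↔ a = c ∧ a ∈ C := by
  rw [← hA.one a c, ← hv, L.ψ_mul]
  constructor
  · intro h
    have h' : L.ψ (v * 1) a c := by rwa [mul_one]
    obtain ⟨m, h1, h2⟩ := (L.ψ_mul _ _ _ _).1 h'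
    obtain ⟨rfl, h3⟩ := (hA.one _ _).1 h2
    exact ⟨m, h1, (hu _ _).2 ⟨rfl, h3⟩⟩
  · rintro ⟨m, h1, h2⟩
    obtain ⟨rfl, _⟩ := (hu _ _).1 h2
    exact h1

/-- Conjugating an arc lift to any other arc. -/
lemma exists_conj [Finite Q] (hA : Arena L C) {x y : H} (hx : x ∈ C) (hy : y ∈ C)
    (hxy : x ≠ y) {F : L.T} (hF : ∀ a c, L.ψ F a c ↔ (a = c ∧ a ∈ C) ∨ (a = x ∧ c = y))
    {a0 b0 : H} (ha0 : a0 ∈ C) (hb0 : b0 ∈ C) (h0 : a0 ≠ b0) :
    ∃ X : L.T, (∀ a c, L.ψ X a c ↔ (a = c ∧ a ∈ C) ∨ (a = a0 ∧ c = b0)) ∧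
      ∀ b, (L.K b X).ncard ≤ (L.K b F).ncard := by
  obtain ⟨π, hπ, h1, h2⟩ := exists_perm C hx hy hxy ha0 hb0 h0
  obtain ⟨g, v, hgv, hvg, hg, hv⟩ := hA.lift_perm π hπ
  refine ⟨g * (F * v), ?_, fun b => ?_⟩
  swap
  · rw [← mul_assoc]
    exact Level.K_sandwich_le hgv F b
  intro a c
  rw [L.ψ_mul]
  constructor
  · rintro ⟨p, h3, h4⟩
    obtain ⟨h5, rfl⟩ := (hg _ _).1 h3
    obtain ⟨q, h6, h7⟩ := (L.ψ_mul _ _ _ _).1 h4
    obtain ⟨h8, h9⟩ := (hv _ _).1 h7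
    rcases (hF _ _).1 h6 with ⟨h10, _⟩ | ⟨h10, h11⟩
    · left
      have : π a = π c := by rw [h10, h9]
      exact ⟨π.injective this, h5⟩
    · right
      refine ⟨π.injective (by rw [h10, h1]), π.injective (by rw [h9, h11, h2])⟩
  · rintro (⟨rfl, h3⟩ | ⟨rfl, rfl⟩)
    · refine ⟨π a, (hg _ _).2 ⟨h3, rfl⟩, (L.ψ_mul _ _ _ _).2 ⟨π a, (hF _ _).2 (Or.inl ⟨rfl, (hπ a).2 h3⟩), (hv _ _).2 ⟨h3, rfl⟩⟩⟩
    · refine ⟨x, (hg _ _).2 ⟨ha0, h1⟩, (L.ψ_mul _ _ _ _).2 ⟨y, (hF _ _).2 (Or.inr ⟨rfl, rfl⟩), (hv _ _).2 ⟨hb0, h2⟩⟩⟩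

end Arena

section start

variable [Finite Q] (L : Level Q H) {C : Set H}

/-- The sandwich, as an element of the corner level. -/
def csand {E : L.T} (hE : E * E = E) (t : L.T) : (L.corner hE).T := Cor.sand hE t

/-- The relation of a sandwich. -/
lemma ψ_sand {E : L.T} (hE : E * E = E) {C1 : Set H} (hA1 : Arena (L.corner hE) C1) (t : L.T)
    (a c : H) : L.ψ (E * (t * E)) a c ↔ a ∈ C1 ∧ c ∈ C1 ∧ L.ψ t a c := by
  have hone : ∀ a c, L.ψ E a c ↔ a = c ∧ a ∈ C1 := hA1.one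
  rw [L.ψ_mul]
  constructor
  · rintro ⟨p, h1, h2⟩
    obtain ⟨rfl, h3⟩ := (hone _ _).1 h1
    obtain ⟨q, h4, h5⟩ := (L.ψ_mul _ _ _ _).1 h2
    obtain ⟨rfl, h6⟩ := (hone _ _).1 h5
    exact ⟨h3, h6, h4⟩
  · rintro ⟨h1, h2, h3⟩
    exact ⟨a, (hone _ _).2 ⟨rfl, h1⟩, (L.ψ_mul _ _ _ _).2 ⟨c, h3, (hone _ _).2 ⟨rfl, h2⟩⟩⟩

/-- **Step (6) of #2142.** -/
theorem start_step (hA : Arena L C) {x y : H} (hx : x ∈ C) (hy : y ∈ C)
    (hxy : x ≠ y) (F : L.T) (hF : ∀ a c, L.ψ F a c ↔ (a = c ∧ a ∈ C) ∨ (a = x ∧ c = y))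
    (S0 T0 : Finset H) (hS0 : ∀ a ∈ S0, a ∈ C \ {x, y}) (hT0 : ∀ c ∈ T0, c ∈ C \ {x, y}) :
    ∃ (E : L.T) (hE : E * E = E), Arena (L.corner hE) (C \ {x, y}) ∧
      ∃ G : H → H → (L.corner hE).T,
        (∀ a ∈ S0, ∀ c ∈ T0, ∀ p r, (L.corner hE).ψ (G a c) p r ↔
          (p = r ∧ p ∈ C \ {x, y}) ∨ (p = a ∧ r = c)) ∧
        ∀ b, Set.ncard {e | e ∈ (L.corner hE).S ∧ e.2 = b ∧
            ∃ a ∈ S0, ∃ c ∈ T0, ¬ (L.corner hE).Fix (G a c) e} ≤
          (1 + S0.card + T0.card) * ((L.K true F).ncard + (L.K false F).ncard) := by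
  classical
  set C1 : Set H := C \ {x, y} with hC1
  -- the min lift
  obtain ⟨E, hE, hA1⟩ : ∃ (E : L.T) (hE : E * E = E), Arena (L.corner hE) C1 := by
    apply exists_arena_corner
    obtain ⟨t, ht⟩ := hA.lift (fun a c => a = c ∧ a ∈ C1)
    refine ⟨t, fun a c => ?_⟩
    rw [ht]
    constructor
    · rintro ⟨_, h, _⟩
      exact h
    · rintro ⟨rfl, h⟩
      exact ⟨h.1, ⟨rfl, h⟩, h.1⟩
  refine ⟨E, hE, hA1, ?_⟩
  -- the conjugates
  have hX : ∀ a, ∃ X : L.T, a ∈ C1 → (∀ p r, L.ψ X p r ↔ (p = r ∧ p ∈ C) ∨ (p = a ∧ r = x)) ∧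
      ∀ b, (L.K b X).ncard ≤ (L.K b F).ncard := by
    intro a
    by_cases ha : a ∈ C1
    · have hax : a ≠ x := fun h => ha.2 (by simp [h])
      obtain ⟨X, h1, h2⟩ := hA.exists_conj hx hy hxy hF ha.1 hx hax
      exact ⟨X, fun _ => ⟨h1, h2⟩⟩
    · exact ⟨1, fun h => absurd h ha⟩
  have hY : ∀ c, ∃ Y : L.T, c ∈ C1 → (∀ p r, L.ψ Y p r ↔ (p = r ∧ p ∈ C) ∨ (p = y ∧ r = c)) ∧
      ∀ b, (L.K b Y).ncard ≤ (L.K b F).ncard := by
    intro c
    by_cases hc : c ∈ C1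
    · have hcy : y ≠ c := fun h => hc.2 (by simp [h])
      obtain ⟨X, h1, h2⟩ := hA.exists_conj hx hy hxy hF hy hc.1 hcy
      exact ⟨X, fun _ => ⟨h1, h2⟩⟩
    · exact ⟨1, fun h => absurd h hc⟩
  choose X hX using hX
  choose Y hY using hY
  -- the units
  have hxC1 : x ∉ C1 := fun h => h.2 (by simp)
  have hyC1 : y ∉ C1 := fun h => h.2 (by simp)
  have hu : ∀ a c, a ∈ C1 → c ∈ C1 → ∀ p r, (L.corner hE).ψ (csand L hE (X a * Y c)) p r ↔
      p = r ∧ p ∈ C1 := by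
    intro a c ha hc p r
    change L.ψ (E * ((X a * Y c) * E)) p r ↔ _
    rw [ψ_sand L hE hA1, L.ψ_mul]
    constructor
    · rintro ⟨h1, h2, m, h3, h4⟩
      rcases ((hX a ha).1 _ _).1 h3 with ⟨rfl, _⟩ | ⟨_, rfl⟩
      · rcases ((hY c hc).1 _ _).1 h4 with ⟨rfl, _⟩ | ⟨rfl, _⟩
        · exact ⟨rfl, h1⟩
        · exact absurd h1 hyC1
      · rcases ((hY c hc).1 _ _).1 h4 with ⟨rfl, _⟩ | ⟨h5, _⟩
        · exact absurd h2 hxC1
        · exact absurd h5 hxy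
    · rintro ⟨rfl, h⟩
      exact ⟨h, h, p, ((hX a ha).1 _ _).2 (Or.inl ⟨rfl, h.1⟩), ((hY c hc).1 _ _).2 (Or.inl ⟨rfl, h.1⟩)⟩
  have hinv : ∀ a c, a ∈ C1 → c ∈ C1 → ∃ v : (L.corner hE).T, v * csand L hE (X a * Y c) = 1 ∧
      csand L hE (X a * Y c) * v = 1 := fun a c ha hc => hA1.unit _ (hu a c ha hc)
  have hinv' : ∀ a c, ∃ v : (L.corner hE).T, a ∈ C1 → c ∈ C1 → v * csand L hE (X a * Y c) = 1 := by
    intro a c
    by_cases h : a ∈ C1 ∧ c ∈ C1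
    · obtain ⟨v, hv, _⟩ := hinv a c h.1 h.2
      exact ⟨v, fun _ _ => hv⟩
    · exact ⟨1, fun h1 h2 => absurd ⟨h1, h2⟩ h⟩
  choose v hv using hinv'
  refine ⟨fun a c => v a c * csand L hE (X a * (F * Y c)), ?_, ?_⟩
  · -- the relation of `G`
    intro a ha c hc p r
    have ha1 := hS0 a ha
    have hc1 := hT0 c hc
    have hvrel := hA1.inv_rel (hu a c ha1 hc1) (hv a c ha1 hc1)
    change (L.corner hE).ψ (v a c * csand L hE (X a * (F * Y c))) p r ↔ _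
    rw [(L.corner hE).ψ_mul]
    constructor
    · rintro ⟨m, h1, h2⟩
      obtain ⟨rfl, hp⟩ := (hvrel _ _).1 h1
      have h3 : L.ψ (E * ((X a * (F * Y c)) * E)) p r := h2
      rw [ψ_sand L hE hA1, L.ψ_mul] at h3
      obtain ⟨_, hr, m, h4, h5⟩ := h3
      obtain ⟨m', h6, h7⟩ := (L.ψ_mul _ _ _ _).1 h5
      rcases ((hX a ha1).1 _ _).1 h4 with ⟨rfl, _⟩ | ⟨rfl, rfl⟩
      · rcases (hF _ _).1 h6 with ⟨rfl, _⟩ | ⟨rfl, rfl⟩
        · rcases ((hY c hc1).1 _ _).1 h7 with ⟨rfl, _⟩ | ⟨rfl, _⟩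
          · exact Or.inl ⟨rfl, hp⟩
          · exact absurd hp hyC1
        · exact absurd hp hxC1
      · rcases (hF _ _).1 h6 with ⟨rfl, _⟩ | ⟨_, rfl⟩
        · rcases ((hY c hc1).1 _ _).1 h7 with ⟨rfl, _⟩ | ⟨h8, _⟩
          · exact absurd hr hxC1
          · exact absurd h8 hxy
        · rcases ((hY c hc1).1 _ _).1 h7 with ⟨rfl, _⟩ | ⟨_, rfl⟩
          · exact absurd hr hyC1
          · exact Or.inr ⟨rfl, rfl⟩
    · intro h
      have hp : p ∈ C1 ∧ r ∈ C1 := by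
        rcases h with ⟨rfl, h⟩ | ⟨rfl, rfl⟩
        · exact ⟨h, h⟩
        · exact ⟨ha1, hc1⟩
      refine ⟨p, (hvrel _ _).2 ⟨rfl, hp.1⟩, ?_⟩
      change L.ψ (E * ((X a * (F * Y c)) * E)) p r
      rw [ψ_sand L hE hA1, L.ψ_mul]
      refine ⟨hp.1, hp.2, ?_⟩
      rcases h with ⟨rfl, h⟩ | ⟨rfl, rfl⟩
      · exact ⟨p, ((hX a ha1).1 _ _).2 (Or.inl ⟨rfl, h.1⟩),
          (L.ψ_mul _ _ _ _).2 ⟨p, (hF _ _).2 (Or.inl ⟨rfl, h.1⟩),
            ((hY c hc1).1 _ _).2 (Or.inl ⟨rfl, h.1⟩)⟩⟩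
      · exact ⟨x, ((hX p ha1).1 _ _).2 (Or.inr ⟨rfl, rfl⟩),
          (L.ψ_mul _ _ _ _).2 ⟨y, (hF _ _).2 (Or.inr ⟨rfl, rfl⟩),
            ((hY r hc1).1 _ _).2 (Or.inr ⟨rfl, rfl⟩)⟩⟩
  · -- the count
    intro b
    set N := (L.K true F).ncard + (L.K false F).ncard with hN
    let Kall : L.T → Set (Dart Q) := fun t => L.K true t ∪ L.K false t
    let U : Set (Dart Q) := Kall F ∪ ((⋃ a ∈ S0, Kall (X a)) ∪ (⋃ c ∈ T0, Kall (Y c)))
    have hKall : ∀ t, (∀ b, (L.K b t).ncard ≤ (L.K b F).ncard) → (Kall t).ncard ≤ N := by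
      intro t ht
      have h1 := Set.ncard_union_le (L.K true t) (L.K false t)
      have h2 := ht true
      have h3 := ht false
      change (L.K true t ∪ L.K false t).ncard ≤ _
      omega
    have hUcard : U.ncard ≤ (1 + S0.card + T0.card) * N := by
      have h1 := Set.ncard_union_le (Kall F) ((⋃ a ∈ S0, Kall (X a)) ∪ (⋃ c ∈ T0, Kall (Y c)))
      have h2 := Set.ncard_union_le (⋃ a ∈ S0, Kall (X a)) (⋃ c ∈ T0, Kall (Y c))
      have h3 : (⋃ a ∈ S0, Kall (X a)).ncard ≤ S0.card * N :=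
        ncard_biUnion_le S0 _ N (fun a ha => hKall _ (hX a (hS0 a ha)).2)
      have h4 : (⋃ c ∈ T0, Kall (Y c)).ncard ≤ T0.card * N :=
        ncard_biUnion_le T0 _ N (fun c hc => hKall _ (hY c (hT0 c hc)).2)
      have h5 : (Kall F).ncard ≤ N := hKall F (fun _ => le_rfl)
      have h6 : (1 + S0.card + T0.card) * N = N + S0.card * N + T0.card * N := by ring
      rw [h6]
      change (Kall F ∪ ((⋃ a ∈ S0, Kall (X a)) ∪ (⋃ c ∈ T0, Kall (Y c)))).ncard ≤ _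
      omega
    refine le_trans ?_ hUcard
    -- each non clean line has a list meeting `U`
    have hmeet : ∀ e, (e ∈ (L.corner hE).S ∧ e.2 = b ∧
        ∃ a ∈ S0, ∃ c ∈ T0, ¬ (L.corner hE).Fix (v a c * csand L hE (X a * (F * Y c))) e) →
        ∃ z, z ∈ crossOf (L.δ E) e ∧ z ∈ U := by
      rintro e ⟨he, _, a, ha, c, hc, hnf⟩
      by_contra hcon
      push Not at hcon
      have hzfix : ∀ t, t ∈ ({F, X a, Y c} : Set L.T) → ∀ z ∈ crossOf (L.δ E) e, L.Fix t z := by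
        intro t ht z hz
        by_contra hnot
        have hzS : z ∈ L.S := by
          obtain ⟨g, _, _, hz'⟩ := hz
          obtain ⟨p, hp | hp⟩ := hz'.exists_arc
          · exact (L.sup E p z hp).2
          · exact (L.sup E p z hp).2
        have hK : z ∈ Kall t := by
          cases hzb : z.2 with
          | true => exact Or.inl ⟨hzS, hzb, hnot⟩
          | false => exact Or.inr ⟨hzS, hzb, hnot⟩
        apply hcon z hz
        rcases ht with rfl | rfl | rfl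
        · exact Or.inl hK
        · exact Or.inr (Or.inl (Set.mem_biUnion (Finset.mem_coe.2 ha) hK))
        · exact Or.inr (Or.inr (Set.mem_biUnion (Finset.mem_coe.2 hc) hK))
      have h1 : (L.corner hE).Fix (csand L hE (X a * Y c)) e :=
        fix_sand_of_cross hE he _ (fun z hz => Level.fix_mul' (hzfix _ (by simp) z hz)
          (hzfix _ (by simp) z hz))
      have h2 : (L.corner hE).Fix (csand L hE (X a * (F * Y c))) e :=
        fix_sand_of_cross hE he _ (fun z hz => Level.fix_mul' (hzfix _ (by simp) z hz)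
          (Level.fix_mul' (hzfix _ (by simp) z hz) (hzfix _ (by simp) z hz)))
      have h3 := Level.fix_inv he (hv a c (hS0 a ha) (hT0 c hc)) h1
      exact hnf (Level.fix_mul' h3 h2)
    choose! f hf1 hf2 using hmeet
    refine Set.ncard_le_ncard_of_injOn f (fun e he => hf2 e he) ?_ (Set.toFinite _)
    intro e he e' he' hee
    refine crossOf_disjoint hE he.1 he'.1 (by rw [he.2.1, he'.2.1]) (hf1 e he) ?_
    rw [hee]
    exact hf1 e' he'

end start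

end Crest.Agent.NF
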