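import Crest.Agent.Lib.NF.Arena
import Crest.Agent.Lib.NF.Count

/-!
UNIT of #2142 (2): if `g * h = 1` then per direction a bijection `d ↦ z d` with
`First d (z d)`, `Last (z d) d`, hence `|K_b (g F h)| ≤ |K_b F|`.
-/

set_option autoImplicit false

namespace Crest.Agent.NF

open Crest.Agent.Lib.TwoWayBeh (Dart Walk Beh starRel)
open Relation

universe u

variable {Q : Type u} {H : Type}

namespace Level

variable {L : Level Q H}

lemma first_sup {g h : L.T} {d z : Dart Q} (h1 : First (L.δ g) (L.δ h) d z) : z ∈ L.S := by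
  rcases h1 with ⟨_, _, h⟩ | ⟨_, _, h⟩ <;> exact (L.sup _ _ _ h).2

lemma last_sup {g h : L.T} {d z : Dart Q} (h1 : Last (L.δ g) (L.δ h) z d) : z ∈ L.S := by
  rcases h1 with ⟨_, _, h⟩ | ⟨_, _, h⟩ <;> exact (L.sup _ _ _ h).1

lemma hop_dirs {A B : Beh Q} {z z' : Dart Q} (h : Hop A B z z') : z.2 ≠ z'.2 := by
  rcases h with ⟨h1, h2, _⟩ | ⟨h1, h2, _⟩ <;> simp [h1, h2]

lemma on_sup {g h : L.T} {d e z : Dart Q} (hz : On (L.δ g) (L.δ h) d e z) : z ∈ L.S := by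
  obtain ⟨z0, z1, h1, h2, _, _⟩ := hz
  rcases ReflTransGen.cases_tail h2 with h | ⟨c, _, hc⟩
  · rw [h]; exact first_sup h1
  · rcases hc with ⟨_, _, h⟩ | ⟨_, _, h⟩ <;> exact (L.sup _ _ _ h).2

/-- The crossing list of a dart `d` at the cut `g|h`, direction `d.2`. -/
def unitList (g h : L.T) (d : Dart Q) : Set (Dart Q) :=
  {z | z.2 = d.2 ∧ On (L.δ g) (L.δ h) d d z}

variable [Finite Q]

/-- **UNIT.** If `g * h = 1` then every dart of direction `b` has one crossing dart, and `d ↦ z d`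
is injective on the darts of direction `b`. -/
theorem exists_unit_map {g h : L.T} (hgh : g * h = 1) (b : Bool) :
    ∃ z : Dart Q → Dart Q,
      (∀ d ∈ L.S, d.2 = b → z d ∈ L.S ∧ (z d).2 = b ∧ First (L.δ g) (L.δ h) d (z d) ∧
        Last (L.δ g) (L.δ h) (z d) d) ∧
      (∀ d ∈ L.S, ∀ d' ∈ L.S, d.2 = b → d'.2 = b → z d = z d' → d = d') := by
  classical
  letI : Fintype (Dart Q) := Fintype.ofFinite _
  have hprod : L.δ g * L.δ h = L.δ 1 := by rw [← L.δ_mul, hgh]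
  have hch : ∀ d ∈ L.S, ∃ z0 z1, First (L.δ g) (L.δ h) d z0 ∧
      ReflTransGen (Hop (L.δ g) (L.δ h)) z0 z1 ∧ Last (L.δ g) (L.δ h) z1 d := by
    intro d hd
    have h1 : (L.δ g * L.δ h).rel d d := by rw [hprod]; exact L.refl d hd
    exact mul_through h1 rfl
  let Sb : Finset (Dart Q) := Finset.univ.filter fun d => d ∈ L.S ∧ d.2 = b
  let A : Dart Q → Finset (Dart Q) := fun d => Finset.univ.filter fun z => z ∈ unitList (L := L) g h d
  have hA : ∀ d z, z ∈ A d ↔ z.2 = d.2 ∧ On (L.δ g) (L.δ h) d d z := by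
    intro d z
    simp [A, unitList]
  have hSb : ∀ d, d ∈ Sb ↔ d ∈ L.S ∧ d.2 = b := by
    intro d
    simp [Sb]
  have hne : ∀ d ∈ Sb, (A d).Nonempty := by
    intro d hd
    obtain ⟨z0, z1, h1, h2, h3⟩ := hch d ((hSb d).1 hd).1
    exact ⟨z0, (hA d z0).2 ⟨h1.dir.symm, z0, z1, h1, ReflTransGen.refl, h2, h3⟩⟩
  have hsub : ∀ d ∈ Sb, A d ⊆ Sb := by
    intro d hd z hz
    obtain ⟨h1, h2⟩ := (hA d z).1 hz
    exact (hSb z).2 ⟨on_sup h2, by rw [h1]; exact ((hSb d).1 hd).2⟩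
  have hdisj : ∀ d ∈ Sb, ∀ d' ∈ Sb, d ≠ d' → Disjoint (A d) (A d') := by
    intro d hd d' hd' hne'
    rw [Finset.disjoint_left]
    intro z hz hz'
    obtain ⟨_, h2⟩ := (hA d z).1 hz
    obtain ⟨_, h4⟩ := (hA d' z).1 hz'
    apply hne'
    apply L.anti d d' (by rw [((hSb d).1 hd).2, ((hSb d').1 hd').2])
    · rw [← hprod]; exact h2.cross h4
    · rw [← hprod]; exact h4.cross h2
  have hcard := Crest.Agent.Lib.NF.singleton_of_disjoint Sb A hne hsub hdisj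
  -- all crossing darts of direction `b` coincide
  have huniq : ∀ d ∈ Sb, ∀ z ∈ A d, ∀ z' ∈ A d, z = z' := by
    intro d hd z hz z' hz'
    obtain ⟨w, hw⟩ := Finset.card_eq_one.1 (hcard d hd)
    rw [hw] at hz hz'
    rw [Finset.mem_singleton.1 hz, Finset.mem_singleton.1 hz']
  have hex : ∀ d, ∃ w, d ∈ Sb → w ∈ L.S ∧ w.2 = b ∧ First (L.δ g) (L.δ h) d w ∧
      Last (L.δ g) (L.δ h) w d ∧ w ∈ A d := by
    intro d
    by_cases hd : d ∈ Sb
    · obtain ⟨z0, z1, h1, h2, h3⟩ := hch d ((hSb d).1 hd).1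
      have hz0 : z0 ∈ A d := (hA d z0).2 ⟨h1.dir.symm, z0, z1, h1, ReflTransGen.refl, h2, h3⟩
      have hz1 : z1 ∈ A d := (hA d z1).2 ⟨h3.dir, z0, z1, h1, h2, ReflTransGen.refl, h3⟩
      have hE := huniq d hd z0 hz0 z1 hz1
      subst hE
      refine ⟨z0, fun _ => ⟨first_sup h1, ?_, h1, h3, hz0⟩⟩
      rw [← h1.dir]; exact ((hSb d).1 hd).2
    · exact ⟨d, fun h => absurd h hd⟩
  choose z hz using hex
  refine ⟨z, ?_, ?_⟩
  · intro d hd hb
    obtain ⟨h1, h2, h3, h4, _⟩ := hz d ((hSb d).2 ⟨hd, hb⟩)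
    exact ⟨h1, h2, h3, h4⟩
  · intro d hd d' hd' hb hb' hE
    by_contra hne'
    have hd1 := (hSb d).2 ⟨hd, hb⟩
    have hd2 := (hSb d').2 ⟨hd', hb'⟩
    have h1 := (hz d hd1).2.2.2.2
    have h2 := (hz d' hd2).2.2.2.2
    rw [← hE] at h2
    exact (Finset.disjoint_left.1 (hdisj d hd1 d' hd2 hne')) h1 h2

omit [Finite Q] in
/-- A dart fixed by `F`, with `First d z` and `Last z d` for `g|h`, gives `d` fixed by `g F h`. -/
lemma fix_sandwich {g h F : L.T} {d z : Dart Q} (h1 : First (L.δ g) (L.δ h) d z)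
    (h2 : Last (L.δ g) (L.δ h) z d) (hF : L.Fix F z) : L.Fix (g * F * h) d := by
  unfold Fix
  rw [L.δ_mul, L.δ_mul]
  rcases h1 with ⟨h3, h4, h5⟩ | ⟨h3, h4, h5⟩
  · rcases h2 with ⟨_, _, h6⟩ | ⟨h6, _, _⟩
    · -- right moving
      have h7 : (L.δ g * L.δ F).rel d z :=
        mul_of_chain (Or.inl ⟨h3, h4, h5⟩) ReflTransGen.refl (Or.inl ⟨h4, h4, hF⟩)
      exact mul_of_chain (Or.inl ⟨h3, h4, h7⟩) ReflTransGen.refl (Or.inl ⟨h4, h3, h6⟩)
    · simp [h4] at h6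
  · rcases h2 with ⟨h6, _, _⟩ | ⟨_, _, h6⟩
    · simp [h4] at h6
    · -- left moving
      have h7 : (L.δ g * L.δ F).rel z d :=
        mul_of_chain (Or.inr ⟨h4, h4, hF⟩) ReflTransGen.refl (Or.inr ⟨h4, h3, h6⟩)
      exact mul_of_chain (Or.inr ⟨h3, h4, h5⟩) ReflTransGen.refl (Or.inr ⟨h4, h3, h7⟩)

/-- **UNIT, counting form.** `|K_b (g F h)| ≤ |K_b F|` when `g * h = 1`. -/
theorem K_sandwich_le {g h : L.T} (hgh : g * h = 1) (F : L.T) (b : Bool) :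
    (L.K b (g * F * h)).ncard ≤ (L.K b F).ncard := by
  obtain ⟨z, hz1, hz2⟩ := exists_unit_map (L := L) hgh b
  apply Set.ncard_le_ncard_of_injOn z
  · rintro d ⟨h1, h2, h3⟩
    obtain ⟨h4, h5, h6, h7⟩ := hz1 d h1 h2
    exact ⟨h4, h5, fun hF => h3 (fix_sandwich h6 h7 hF)⟩
  · rintro d ⟨h1, h2, _⟩ d' ⟨h4, h5, _⟩ hE
    exact hz2 d h1 d' h4 h2 h5 hE

end Level

end Crest.Agent.NF
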